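import Vale.Agent.P207.H440.D3b
import Vale.Agent.P207.H566.Nab
import Vale.Agent.P207.H566.Nbh
import Vale.Agent.P207.Kat.Final
import Vale.Agent.P207.Q.H717.PPinch

/-!
# P207 / H440: metrics which are `C^2`-close to a metric of negative curvature are negatively curved
-/

open scoped Manifold ContDiff ENNReal Topology
open Bundle MeasureTheory Set Filter Topology Metric

noncomputable section

set_option maxSynthPendingDepth 3
set_option linter.unusedSectionVars false

namespace Vale.Agent.P207.H440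

open Vale.Agent.P207 Vale.Agent.P207.Q Vale.Agent.P207.Q.Fl
open Vale.Agent.P255 (RMetric coefIn Gam Riem IsGeo Metric Npc ExpSys toMetric geo expg cc trans
  IsGeodesic coefL chris chrisB IsMetricOn covD)
open Vale.Agent.P207.H442 (ev)
open Vale.Agent.P207.Kat
open Vale.Agent.P207.Q.H892 (exists_frame)
open Vale.Agent.P207.Q.H545 (exists_frame_pair)
open Vale.Agent.P207.H566 (Cv Cover)

variable {n : ℕ} {M : Type} [TopologicalSpace M] [ChartedSpace (EV n) M]
  [IsManifold 𝓘(ℝ, EV n) ∞ M] {g : RMetric (EV n) M}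

/-- the curvature form `⟨R(v,w)w, v⟩` in a chart -/
def sc (G : EV n → EV n →L[ℝ] EV n →L[ℝ] ℝ) (u v w : EV n) : ℝ :=
  G u (D1.curvT G u v w w) v

theorem sc_comb {G : EV n → EV n →L[ℝ] EV n →L[ℝ] ℝ} {U : Set (EV n)} (h : IsMetricOn G U)
    {u : EV n} (hu : u ∈ U) (x y : EV n) (b c d : ℝ) :
    sc G u (b • x + c • y) (d • x) = (c * d) ^ 2 * sc G u y x := by
  have h1 : D1.curvT G u x x x = 0 := by
    have h2 := D1.curvT_anti h hu x x x
    have h3 : (2 : ℝ) • D1.curvT G u x x x = 0 := by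
      rw [two_smul]
      nth_rw 1 [h2]
      exact neg_add_cancel _
    exact (smul_eq_zero.1 h3).resolve_left two_ne_zero
  have h4 : G u (D1.curvT G u y x x) x = 0 := by
    have h5 := D1.curvT_skew h hu y x x x
    linarith
  unfold sc
  simp only [map_add, map_smul, add_apply, smul_apply, smul_eq_mul, h1, h4, map_zero, zero_apply]
  ring

/-- chart independence -/
theorem sc_chF (g' : RMetric (EV n) M) (f : Fr g) (i j : Fin n) {a : M}
    (ha : f.pt ∈ (chartAt (EV n) a).source) :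
    sc ((mt g').coef f.pt) (chartAt (EV n) f.pt f.pt) (f.e i) (f.e j) =
      sc ((mt g').coef a) (chF a f.1).1 ((chF a f.1).2 i) ((chF a f.1).2 j) := by
  have hm := (mt g').isMetricOn f.pt
  have hm' := (mt g').isMetricOn a
  have hu : chartAt (EV n) f.pt f.pt ∈ (chartAt (EV n) f.pt).target := mem_chart_target _ _
  have hb' : (chartAt (EV n) f.pt).symm (chartAt (EV n) f.pt f.pt) ∈
      (chartAt (EV n) a).source := by
    rw [(chartAt (EV n) f.pt).left_inv (mem_chart_source _ f.pt)]; exact ha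
  have hev := P255.eventually_trans f.pt a hu hb'
  have hcc : trans (EV n) f.pt a (chartAt (EV n) f.pt f.pt) = chartAt (EV n) a f.pt :=
    P255.trans_symm_source f.pt a (mem_chart_source (EV n) f.pt)
  have h1 : ∀ᶠ x in 𝓝 (chartAt (EV n) f.pt f.pt), trans (EV n) f.pt a x ∈
      (chartAt (EV n) a).target := by
    filter_upwards [hev] with x hx
    exact (chartAt (EV n) a).map_source hx.2
  have h2 : ∀ᶠ x in 𝓝 (chartAt (EV n) f.pt f.pt), ContDiffAt ℝ ∞ (trans (EV n) f.pt a) x := by
    filter_upwards [hev] with x hx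
    exact P255.contDiffAt_trans f.pt a hx.1 hx.2
  have h3 : ∀ᶠ x in 𝓝 (chartAt (EV n) f.pt f.pt), ∀ v w, (mt g').coef a (trans (EV n) f.pt a x)
      (fderiv ℝ (trans (EV n) f.pt a) x v) (fderiv ℝ (trans (EV n) f.pt a) x w) =
      (mt g').coef f.pt x v w := by
    filter_upwards [hev] with x hx
    exact (mt g').compat f.pt a x hx.1 hx.2
  have key := D1.curvT_trans hm hm' hu h1 h2 h3 (f.e i) (f.e j) (f.e j)
  have h3' := h3.self_of_nhds
    (D1.curvT ((mt g').coef f.pt) (chartAt (EV n) f.pt f.pt) (f.e i) (f.e j) (f.e j)) (f.e i)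
  rw [key, hcc] at h3'
  exact h3'.symm

/-- the curvature form of `g'` on two vectors of a frame of `g` -/
def Rg (g' : RMetric (EV n) M) (f : Fr g) (i j : Fin n) : ℝ :=
  sc ((mt g').coef f.pt) (chartAt (EV n) f.pt f.pt) (f.e i) (f.e j)

/-- negative curvature on the planes of the frames of another metric -/
theorem neg_of_frames {g' : RMetric (EV n) M} {i₀ i₁ : Fin n} (hi : i₀ ≠ i₁)
    (h : ∀ f : Fr g, Rg g' f i₁ i₀ < 0) : NegCurvature g' := by
  intro a u hu v w hli
  have hgoal : coefIn g' a u (Riem (coefIn g' a) u v w w) v = sc ((mt g').coef a) u v w := by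
    rw [D1.riem_mt g' a hu]
    rfl
  rw [hgoal]
  have hmg := (mt g).isMetricOn a
  have hmg' := (mt g').isMetricOn a
  set G := (mt g).coef a u with hG
  have hpos : ∀ z, z ≠ 0 → 0 < G z z := fun z hz => hmg.pos u hu z hz
  have hsymm : ∀ x y, G x y = G y x := fun x y => hmg.symm u hu x y
  have hw : w ≠ 0 := hli.ne_zero 1
  set c := G w w with hc
  have hc0 : 0 < c := hpos w hw
  set e₀ := (Real.sqrt c)⁻¹ • w with he₀
  have hsc : 0 < Real.sqrt c := Real.sqrt_pos.2 hc0
  have hscc : Real.sqrt c * Real.sqrt c = c := Real.mul_self_sqrt hc0.le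
  have hwe : w = Real.sqrt c • e₀ := by
    rw [he₀, smul_smul, mul_inv_cancel₀ hsc.ne', one_smul]
  have h00 : G e₀ e₀ = 1 := by
    rw [he₀]
    simp only [map_smul, smul_apply, smul_eq_mul]
    rw [← hc]
    field_simp
    linarith
  set b := G v e₀ with hb
  set z := v - b • e₀ with hz
  have hz0 : z ≠ 0 := by
    intro h0
    rw [LinearIndependent.pair_iff] at hli
    have := (hli 1 (-(b * (Real.sqrt c)⁻¹)) (by
      rw [one_smul, neg_smul, mul_smul, ← sub_eq_add_neg]
      exact h0)).1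
    exact one_ne_zero this
  set d := G z z with hd
  have hd0 : 0 < d := hpos z hz0
  have hsd : 0 < Real.sqrt d := Real.sqrt_pos.2 hd0
  have hsdd : Real.sqrt d * Real.sqrt d = d := Real.mul_self_sqrt hd0.le
  set e₁ := (Real.sqrt d)⁻¹ • z with he₁
  have hze : z = Real.sqrt d • e₁ := by
    rw [he₁, smul_smul, mul_inv_cancel₀ hsd.ne', one_smul]
  have hz_e : G z e₀ = 0 := by
    rw [hz]
    simp only [map_sub, map_smul, sub_apply, smul_apply, smul_eq_mul, h00]
    rw [← hb]
    ring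
  have h01 : G e₀ e₁ = 0 := by
    rw [he₁, map_smul, hsymm, hz_e, smul_zero]
  have h11 : G e₁ e₁ = 1 := by
    rw [he₁]
    simp only [map_smul, smul_apply, smul_eq_mul]
    rw [← hd]
    field_simp
    linarith
  have hve : v = b • e₀ + Real.sqrt d • e₁ := by
    rw [← hze, hz]
    abel
  -- the frame
  have hx : (chartAt (EV n) a).symm u ∈ (chartAt (EV n) a).source :=
    (chartAt (EV n) a).map_target hu
  set x := (chartAt (EV n) a).symm u with hxdef
  have hux : chartAt (EV n) a x = u := (chartAt (EV n) a).right_inv hu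
  set T : EV n → EV n := fun v => fderiv ℝ (trans (EV n) a x) u v with hT
  have hin : ∀ v w, innerB g x (T v) (T w) = G v w := by
    intro v w
    have h1 := inner_chFs (ι := Fin 2) g a (y := (u, ![v, w])) hu 0 1
    exact h1
  obtain ⟨f, hf, hf0, hf1⟩ := exists_frame_pair (g := g) hi x (v := T e₀) (w := T e₁)
    (by rw [hin]; exact h00) (by rw [hin]; exact h01) (by rw [hin]; exact h11)
  have hfs : f.pt ∈ (chartAt (EV n) a).source := by rw [hf]; exact hx
  have h2 : Rg g' f i₁ i₀ =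
      sc ((mt g').coef a) (chF a f.1).1 ((chF a f.1).2 i₁) ((chF a f.1).2 i₀) :=
    sc_chF g' f i₁ i₀ hfs
  have hc1 : (chF a f.1).1 = u := by
    change chartAt (EV n) a f.pt = u
    rw [hf]; exact hux
  have hcf : ∀ i v, f.e i = T v → (chF a f.1).2 i = v := by
    intro i v hv
    change fderiv ℝ (trans (EV n) f.pt a) (chartAt (EV n) f.pt f.pt) (f.e i) = v
    rw [hv, hf, hT]
    have := fderiv_trans_forth a hx v
    rw [hux] at this
    exact this
  rw [hc1, hcf i₁ e₁ hf1, hcf i₀ e₀ hf0] at h2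
  have h3 := h f
  rw [h2] at h3
  rw [hve]
  rw [hwe]
  rw [sc_comb hmg' hu]
  have h4 : 0 < (Real.sqrt d * Real.sqrt c) ^ 2 := by positivity
  exact mul_neg_of_pos_of_neg h4 h3

variable [NeZero n]

/-- continuity of the curvature form in the metric and the frame -/
theorem tendsto_Rg {T : Type} {l : Filter T} {G : T → RMetric (EV n) M}
    (hC : ∀ a : M, ∀ u ∈ (chartAt (EV n) a).target,
      Cv l u 2 (fun t => (mt (G t)).coef a) ((mt g).coef a)) (f₀ : Fr g) (i j : Fin n) :
    Tendsto (fun q : T × Fr g => Rg (G q.1) q.2 i j) (l ×ˢ 𝓝 f₀) (𝓝 (Rg g f₀ i j)) := by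
  have : Nonempty (Fin n) := ⟨0⟩
  set a := f₀.pt with ha
  have hm := (mt g).isMetricOn a
  have hsrc : f₀.pt ∈ (chartAt (EV n) a).source := mem_chart_source _ _
  have hu : (chF a f₀.1).1 ∈ (chartAt (EV n) a).target := (chartAt (EV n) a).map_source hsrc
  set u := (chF a f₀.1).1 with hudef
  have hi := hm.isInvertible hu
  have hc : ContinuousAt ((mt g).coef a) u := (hm.contDiffAt hu).continuousAt
  have h2 := hC a u hu
  have hG : Tendsto (fun q : T × EV n => (mt (G q.1)).coef a q.2) (l ×ˢ 𝓝 u)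
      (𝓝 ((mt g).coef a u)) := h2.tendsto
  have hR : Tendsto (fun q : T × EV n => D1.curvT ((mt (G q.1)).coef a) q.2) (l ×ˢ 𝓝 u)
      (𝓝 (D1.curvT ((mt g).coef a) u)) := (Cv.curvT (m := 0) h2 hi hc).tendsto
  have hF : ContinuousAt (fun f : Fr g => chF a f.1) f₀ :=
    ContinuousAt.comp (f := fun f : Fr g => f.1) (g := chF a) (continuousAt_chF a hsrc)
      Fr.continuous_val.continuousAt
  have hF' : Tendsto (fun q : T × Fr g => chF a q.2.1) (l ×ˢ 𝓝 f₀) (𝓝 (chF a f₀.1)) :=
    hF.tendsto.comp tendsto_snd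
  have h1 : Tendsto (fun q : T × Fr g => (q.1, (chF a q.2.1).1)) (l ×ˢ 𝓝 f₀) (l ×ˢ 𝓝 u) :=
    tendsto_fst.prodMk hF'.fst_nhds
  have h3 : ∀ i, Tendsto (fun q : T × Fr g => (chF a q.2.1).2 i) (l ×ˢ 𝓝 f₀)
      (𝓝 ((chF a f₀.1).2 i)) := fun i => (tendsto_pi_nhds.1 hF'.snd_nhds) i
  have h4 := hG.comp h1
  have h5 := hR.comp h1
  have h6 : Tendsto (fun q : T × Fr g => sc ((mt (G q.1)).coef a) (chF a q.2.1).1
      ((chF a q.2.1).2 i) ((chF a q.2.1).2 j)) (l ×ˢ 𝓝 f₀)
      (𝓝 (sc ((mt g).coef a) u ((chF a f₀.1).2 i) ((chF a f₀.1).2 j))) :=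
    H566.tendsto_clm_apply (H566.tendsto_clm_apply h4 (H566.tendsto_clm_apply
      (H566.tendsto_clm_apply (H566.tendsto_clm_apply h5 (h3 i)) (h3 j)) (h3 j))) (h3 i)
  have h7 : Rg g f₀ i j = sc ((mt g).coef a) u ((chF a f₀.1).2 i) ((chF a f₀.1).2 j) :=
    sc_chF g f₀ i j hsrc
  rw [h7]
  refine h6.congr' ?_
  have h8 : ∀ᶠ q : T × Fr g in l ×ˢ 𝓝 f₀, q.2.pt ∈ (chartAt (EV n) a).source :=
    tendsto_snd.eventually (Fr.continuous_pt.continuousAt.preimage_mem_nhds
      ((chartAt (EV n) a).open_source.mem_nhds hsrc))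
  filter_upwards [h8] with q hq
  exact (sc_chF (G q.1) q.2 i j hq).symm

variable [CompactSpace M] [T2Space M]

theorem Rg_neg (hN : NegCurvature g) {i₀ i₁ : Fin n} (hi : i₀ ≠ i₁) (f : Fr g) :
    Rg g f i₁ i₀ < 0 := by
  have h := H717.neg_Rf_pos hN hi f
  have h1 : Rg g f i₁ i₀ = H545.Rf g f i₁ i₀ i₀ i₁ := rfl
  rw [h1]
  linarith

/-- negative curvature is preserved in the limit of a `C²` convergent family -/
theorem eventually_neg {T : Type} {l : Filter T} {G : T → RMetric (EV n) M}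
    (hN : NegCurvature g) (hC : ∀ a : M, ∀ u ∈ (chartAt (EV n) a).target,
      Cv l u 2 (fun t => (mt (G t)).coef a) ((mt g).coef a)) :
    ∀ᶠ t in l, NegCurvature (G t) := by
  by_cases hn : n ≤ 1
  · refine Eventually.of_forall fun t a u hu v w hli => ?_
    exfalso
    have h1 := hli.fintype_card_le_finrank
    simp only [Fintype.card_fin, EV, finrank_euclideanSpace] at h1
    omega
  · push Not at hn
    have hi : (⟨0, by omega⟩ : Fin n) ≠ ⟨1, hn⟩ := by simp
    have h1 : {q : T × Fr g | Rg (G q.1) q.2 ⟨1, hn⟩ ⟨0, by omega⟩ < 0} ∈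
        l ×ˢ 𝓝ˢ (univ : Set (Fr g)) := by
      refine isCompact_univ.mem_prod_nhdsSet_of_forall fun f _ => ?_
      exact (tendsto_Rg hC f _ _).eventually (gt_mem_nhds (Rg_neg hN hi f))
    rw [nhdsSet_univ, Filter.mem_prod_top] at h1
    filter_upwards [h1] with t ht
    exact neg_of_frames (g := g) hi ht

variable [MeasurableSpace M] [BorelSpace M]

/-- metrics which are close on the pieces of a cover converge in all charts -/
theorem cv_of_near [Nonempty (Fr g)] (D : Dat g) {m : ℕ} {a : Fin m → M}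
    {Kc : Fin m → Set (EV n)}
    (hK : ∀ i, IsCompact (Kc i) ∧ Kc i ⊆ (chartAt (EV n) (a i)).target)
    (hcov : (⋃ i, (chartAt (EV n) (a i)).symm '' Kc i) = univ) {N : ℕ}
    {G : ℕ → RMetric (EV n) M} {ε : ℕ → ℝ} (hε : Tendsto ε atTop (𝓝 0))
    (hG : ∀ t, Near g (G t) N m a Kc (ε t)) (b : M) {u : EV n}
    (hu : u ∈ (chartAt (EV n) b).target) :
    Cv atTop u N (fun t => (mt (G t)).coef b) ((mt g).coef b) := by
  obtain ⟨C, hC, hle⟩ := H566.cN_kS_le (horFlows g) D.hP D.hφ D.hmp
    (⟨m, a, Kc, fun i => (hK i).1, fun i => (hK i).2, hcov⟩ : Cover n M) N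
  have ho := (chartAt (EV n) b).open_target
  obtain ⟨r, hr, hrs⟩ := Metric.nhds_basis_closedBall.mem_iff.1 (ho.mem_nhds hu)
  obtain ⟨C', hC', hle'⟩ := bd_coef D b (isCompact_closedBall u r) hrs N
  have h1 : ∀ t, D.cT N (H992.kS g (G t)) ≤ n * (n * (C * ε t)) := by
    intro t
    have h2 : ∀ i j, D.c N (H992.kS g (G t) i j) ≤ C * ε t := fun i j =>
      hle (G t) (ε t) (fun i j l q hq u hu => (hG t i j l q hq u hu).le) i j
    calc D.cT N (H992.kS g (G t)) ≤ ∑ _i : Fin n, ∑ _j : Fin n, C * ε t :=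
          Finset.sum_le_sum fun i _ => Finset.sum_le_sum fun j _ => h2 i j
      _ = _ := by simp
  have h2 : ∀ t, Bd N (closedBall u r) (fun v => coefL (G t) b v - coefL g b v)
      (C' * (n * (n * (C * ε t)))) := fun t =>
    (hle' (G t) (H992.kS g (G t)) fun p i j => rfl).mono
      (mul_le_mul_of_nonneg_left (h1 t) hC')
  have h3 : Cv atTop u N (fun t v => coefL (G t) b v - coefL g b v) (fun _ => 0) := by
    refine Cv.of_small ?_ fun q hq => ?_
    · have h4 : ∀ᶠ p : ℕ × EV n in atTop ×ˢ 𝓝 u, p.2 ∈ (chartAt (EV n) b).target :=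
        tendsto_snd.eventually (ho.mem_nhds hu)
      filter_upwards [h4] with p hp
      exact ((contDiffOn_coefL' (G p.1) b).sub (contDiffOn_coefL' g b)).contDiffAt
        (ho.mem_nhds hp)
    · refine squeeze_zero' (g := fun p : ℕ × EV n => C' * (n * (n * (C * ε p.1))))
        (Eventually.of_forall fun p => norm_nonneg _) ?_ ?_
      · have h4 : ∀ᶠ p : ℕ × EV n in atTop ×ˢ 𝓝 u, p.2 ∈ closedBall u r :=
          tendsto_snd.eventually (closedBall_mem_nhds u hr)
        filter_upwards [h4] with p hp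
        exact h2 p.1 q hq p.2 hp
      · have h5 : Tendsto (fun t => C' * (n * (n * (C * ε t)))) atTop (𝓝 0) := by
          have := ((((hε.const_mul C).const_mul (n : ℝ)).const_mul (n : ℝ)).const_mul C')
          simpa using this
        exact h5.comp tendsto_fst
  have h4 : Cv atTop u N (fun _ : ℕ => coefL g b) (coefL g b) := by
    refine Cv.fixed ?_
    filter_upwards [ho.mem_nhds hu] with v hv
    exact (contDiffOn_coefL' g b).contDiffAt (ho.mem_nhds hv)
  refine (h3.add h4).congr (Eventually.of_forall fun p => ?_) (Eventually.of_forall fun v => ?_)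
  · exact (sub_add_cancel _ _).symm
  · exact (zero_add _).symm

/-- **metrics which are `C²`-close to a negatively curved metric are negatively curved** -/
theorem negCurvature_near (hN : NegCurvature g) {m : ℕ} {a : Fin m → M}
    {Kc : Fin m → Set (EV n)}
    (hK : ∀ i, IsCompact (Kc i) ∧ Kc i ⊆ (chartAt (EV n) (a i)).target)
    (hcov : (⋃ i, (chartAt (EV n) (a i)).symm '' Kc i) = univ) :
    ∃ ε > (0 : ℝ), ∀ g' : RMetric (EV n) M, Near g g' 2 m a Kc ε → NegCurvature g' := by
  rcases isEmpty_or_nonempty M with hM | hM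
  · exact ⟨1, one_pos, fun g' _ a => (hM.false a).elim⟩
  have : Nonempty (Fr g) := (exists_frame g hM.some).nonempty
  obtain ⟨D⟩ := Dat.nonempty (g := g) hM
  by_contra hcon
  push Not at hcon
  choose G hG hGN using fun t : ℕ => hcon (1 / ((t : ℝ) + 1)) (by positivity)
  have h1 := eventually_neg hN fun b u hu =>
    cv_of_near D hK hcov tendsto_one_div_add_atTop_nhds_zero_nat hG b hu
  obtain ⟨t, ht⟩ := h1.exists
  exact hGN t ht

end Vale.Agent.P207.H440
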