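import Vale.Agent.P207.Kat.Main

/-!
# P207 / H440: the order of the Sobolev inequality depends only on the dimension
-/

open scoped Manifold ContDiff ENNReal Topology
open Bundle MeasureTheory Set Filter Topology Metric

noncomputable section

set_option maxSynthPendingDepth 3
set_option linter.unusedSectionVars false

namespace Vale.Agent.P207.H440

open Vale.Agent.P207 Vale.Agent.P207.Q Vale.Agent.P207.Q.Fl
open Vale.Agent.P255 (RMetric coefIn Gam Riem IsGeo Metric Npc ExpSys toMetric geo expg cc trans
  IsGeodesic coefL chris chrisB IsMetricOn covD)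
open Vale.Agent.P207.Kat
open Vale.Agent.P207.H395 (NSys)
open Vale.Agent.P207.H955 (ofN avg cN_nonneg hN_nonneg hN_mono integral_abs_le_l2 l2_it_le)

section Abs

variable {ι : Type} [Fintype ι] {N : Type} [TopologicalSpace N] [CompactSpace N]
  [MeasurableSpace N] {μ : Measure N} [BorelSpace N] [IsFiniteMeasure μ]

/-- the Sobolev inequality with the order given by the length of the list of flows -/
theorem sobolev_length (S : NSys ι N μ) {l : List ι} {r C : ℝ} (hr : 0 < r)
    (h : ∀ F : N → ℝ, Continuous F → (∀ p, 0 ≤ F p) → ∀ p, avg S.Φ r l F p ≤ C * ∫ q, F q ∂μ) :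
    ∃ K : ℝ, 0 < K ∧ ∀ (s : ℕ) (u : S.A), S.cN s u ≤ K * S.hN (s + l.length) u := by
  set K : ℝ := ‖(ContinuousMap.toLp 2 μ ℝ (1 : C(N, ℝ)) : Lp ℝ 2 μ)‖ with hK
  have hK0 : 0 ≤ K := norm_nonneg _
  set C' : ℝ := (max (1 / r) 1) ^ l.length * max C 0 * (l.sublists'.length * K) with hC'
  have hC'0 : 0 ≤ C' := by positivity
  have key : ∀ u : S.A, ‖(u : C(N, ℝ))‖ ≤ (C' + 1) * S.hN l.length u := by
    intro u
    have hh := hN_nonneg S l.length u
    rw [ContinuousMap.norm_le _ (mul_nonneg (by linarith) hh)]
    intro p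
    have h1 := (ofN S).sobolev S.cont S.zero hr l (C := max C 0) (μ := μ)
      (fun F hF hF0 p => (h F hF hF0 p).trans
        (mul_le_mul_of_nonneg_right (le_max_left _ _) (integral_nonneg hF0))) u p
    refine h1.trans ?_
    have h0 : (max (1 / r) 1) ^ l.length * max C 0 *
        (l.sublists'.map fun l' => ∫ q, |(ofN S).ev ((ofN S).it l' u) q| ∂μ).sum ≤
        C' * S.hN l.length u := by
      rw [hC', mul_assoc ((max (1 / r) 1) ^ l.length * max C 0)]
      refine mul_le_mul_of_nonneg_left ?_ (by positivity)
      have h2 : (l.sublists'.map fun l' => ∫ q, |(ofN S).ev ((ofN S).it l' u) q| ∂μ).sum ≤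
          (l.sublists'.map fun _ => K * S.hN l.length u).sum := by
        refine List.sum_le_sum fun l' hl' => ?_
        refine (integral_abs_le_l2 S _).trans (mul_le_mul_of_nonneg_left ?_ hK0)
        refine (l2_it_le S l' u).trans (hN_mono S ?_ u)
        exact (List.mem_sublists'.1 hl').length_le
      refine h2.trans (le_of_eq ?_)
      rw [List.map_const', List.sum_replicate, nsmul_eq_mul]
      ring
    refine h0.trans ?_
    nlinarith
  refine ⟨C' + 1, by linarith, fun s => ?_⟩
  induction s with
  | zero =>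
    intro u
    rw [Nat.zero_add]
    exact key u
  | succ s ih =>
    intro u
    have e : s + 1 + l.length = (s + l.length) + 1 := by omega
    rw [e]
    change S.cN s u + ∑ a, S.cN s (S.X a u) ≤
      (C' + 1) * (S.hN (s + l.length) u + ∑ a, S.hN (s + l.length) (S.X a u))
    rw [mul_add, Finset.mul_sum]
    exact add_le_add (ih u) (Finset.sum_le_sum fun a _ => ih _)

end Abs

variable {n : ℕ} {M : Type} [TopologicalSpace M] [ChartedSpace (EV n) M]
  [IsManifold 𝓘(ℝ, EV n) ∞ M] {g : RMetric (EV n) M}
variable [NeZero n] [CompactSpace M] [T2Space M] [Nonempty (Fr g)]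
variable [MeasurableSpace M] [BorelSpace M]

/-- **the Sobolev inequality on the frame bundle, with the order `card (Kp n) = dim Fr g`** -/
theorem sobOrd (D : Dat g) : ∃ K : ℝ, 0 < K ∧ ∀ (s : ℕ) (u : SmFr g),
    D.c s u ≤ K * D.h (s + Fintype.card (Kp n)) u := by
  classical
  obtain ⟨l, hl, hall⟩ := exists_list (n := n)
  have hem : ∀ κ t p, D.S.Φ (Dat.em κ) t p = fl (horFlows g) κ t p := fun κ t p => by
    cases κ with
    | inl i => rfl
    | inr q => rfl
  have hmp : ∀ κ t, MeasurePreserving (fl (horFlows g) κ t) D.mP D.mP := by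
    intro κ t
    have h1 := D.S.mp (Dat.em κ) t
    have h2 : D.S.Φ (Dat.em κ) t = fl (horFlows g) κ t := funext fun p => hem κ t p
    rwa [h2] at h1
  obtain ⟨r, hr, C, -, h⟩ := loc_avg (horFlows g) hmp hl hall
  have hlen : (l.map (Dat.em (n := n))).length = Fintype.card (Kp n) := by
    rw [List.length_map, ← List.toFinset_card_of_nodup hl]
    congr 1
    ext κ
    simp [hall κ]
  rw [← hlen]
  refine sobolev_length D.S hr (l := l.map Dat.em) (C := C) fun F hF h0 p => ?_
  rw [avg_map]
  have h2 : (fun a => D.S.Φ (Dat.em a)) = fl (horFlows g) := by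
    funext κ t p
    exact hem κ t p
  rw [h2]
  exact h F hF h0 p

/-- the number of flows -/
theorem card_Kp (n : ℕ) : Fintype.card (Kp n) = n * (n + 1) / 2 := by
  have h1 : Fintype.card {p : Fin n × Fin n // p.1 < p.2} = n * (n - 1) / 2 := by
    rw [← Nat.choose_two_right]
    have h2 : Fintype.card {p : Fin n × Fin n // p.1 < p.2} =
        (Finset.univ.filter fun p : Fin n × Fin n => p.1 < p.2).card := Fintype.card_subtype _
    rw [h2]
    have h3 : (Finset.univ.filter fun p : Fin n × Fin n => p.1 < p.2).card =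
        ((Finset.univ : Finset (Fin n)).powersetCard 2).card := by
      refine Finset.card_bij (fun p _ => {p.1, p.2}) ?_ ?_ ?_
      · intro p hp
        rw [Finset.mem_powersetCard]
        refine ⟨Finset.subset_univ _, Finset.card_pair ?_⟩
        exact (Finset.mem_filter.1 hp).2.ne
      · intro p hp q hq h
        have hp' := (Finset.mem_filter.1 hp).2
        have hq' := (Finset.mem_filter.1 hq).2
        have e1 : p.1 ∈ ({q.1, q.2} : Finset (Fin n)) := by
          rw [← h]
          simp
        have e2 : p.2 ∈ ({q.1, q.2} : Finset (Fin n)) := by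
          rw [← h]
          simp
        rw [Finset.mem_insert, Finset.mem_singleton] at e1 e2
        rcases e1 with e1 | e1 <;> rcases e2 with e2 | e2
        · rw [e1, e2] at hp'
          exact absurd hp' (lt_irrefl _)
        · exact Prod.ext e1 e2
        · rw [e1, e2] at hp'
          exact absurd hp' (lt_asymm hq')
        · rw [e1, e2] at hp'
          exact absurd hp' (lt_irrefl _)
      · intro s hs
        obtain ⟨x, y, hxy, rfl⟩ := Finset.card_eq_two.1 (Finset.mem_powersetCard.1 hs).2
        rcases lt_or_gt_of_ne hxy with h | h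
        · exact ⟨(x, y), by simp [h], rfl⟩
        · exact ⟨(y, x), by simp [h], Finset.pair_comm _ _⟩
    rw [h3, Finset.card_powersetCard, Finset.card_univ, Fintype.card_fin]
  rw [Fintype.card_sum, Fintype.card_fin, h1]
  rcases n with _ | n
  · rfl
  · have h2 : (n + 1) * (n + 1 + 1) = (n + 1) * n + 2 * (n + 1) := by ring
    rw [h2, Nat.add_mul_div_left _ _ (by norm_num : 0 < 2), Nat.add_sub_cancel]
    exact add_comm _ _

end Vale.Agent.P207.H440
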