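import Vale.Agent.P207.H440.NSysLoc
import Vale.Agent.P207.H955.FrN

/-!
# P207 / H440: (LOC) and (CL) for the system `frN`
-/

open scoped Manifold ContDiff ENNReal Topology
open Bundle MeasureTheory Set Filter Topology Metric

noncomputable section

set_option maxSynthPendingDepth 3
set_option linter.unusedSectionVars false

namespace Vale.Agent.P207.H440

open Vale.Agent.P207 Vale.Agent.P207.Q Vale.Agent.P207.Q.Fl
open Vale.Agent.P255 (RMetric coefIn Gam Riem IsGeo Metric Npc ExpSys toMetric geo expg cc trans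
  IsGeodesic coefL chris chrisB IsMetricOn covD)
open Vale.Agent.P207.H955 (Ix flowN frN)

variable {n : ℕ} {M : Type} [TopologicalSpace M] [ChartedSpace (EV n) M]
  [IsManifold 𝓘(ℝ, EV n) ∞ M] {g : RMetric (EV n) M}
variable [NeZero n] [CompactSpace M] [T2Space M] [Nonempty (Fr g)]
variable (H : HorFlows g) {m : Measure (UT g)} {mP : Measure (Fr g)} {φ : ℝ → UT g → UT g}
  (hP : IsMP m mP) (hφ : IsGeoFlow g φ) (hmp : ∀ t, MeasurePreserving (φ t) m m)

/-- the flows of `Kp` among the flows of `Ix` -/
def em : Kp n → Ix n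
  | Sum.inl i => Sum.inl i
  | Sum.inr p => Sum.inr p.1

theorem flowN_em (κ : Kp n) (t : ℝ) (p : Fr g) : flowN H (em κ) t p = fl H κ t p := by
  rcases κ with i | q <;> rfl

/-- **(LOC) for the frame bundle** -/
theorem frN_loc : (frN H hP hφ hmp).Loc := by
  have := hP.prob
  have := hP.openPos
  exact nsys_loc H (frN H hP hφ hmp) em fun κ t p => flowN_em H κ t p

/-- **(CL) for the frame bundle** -/
theorem frN_cl : (frN H hP hφ hmp).CL :=
  nsys_cl H (frN H hP hφ hmp) em (fun κ t p => flowN_em H κ t p) fun _ hf => hf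

end Vale.Agent.P207.H440
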