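import Vale.Agent.P207.H440.D3Bd
import Vale.Agent.P207.H440.FrLC
import Vale.Agent.P207.Kat.Spec

/-!
# P207 / H440: the `C^N` norms on the frame bundle bound the derivatives in charts
-/

open scoped Manifold ContDiff ENNReal Topology
open Bundle MeasureTheory Set Filter Topology Metric

noncomputable section

set_option maxSynthPendingDepth 3
set_option linter.unusedSectionVars false

namespace Vale.Agent.P207.H440

open Vale.Agent.P207 Vale.Agent.P207.Q Vale.Agent.P207.Q.Fl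
open Vale.Agent.P255 (RMetric coefIn Gam Riem IsGeo Metric Npc ExpSys toMetric geo expg cc trans
  IsGeodesic coefL chris chrisB IsMetricOn covD)
open Vale.Agent.P207.H955 (Ix flowN frN)
open Vale.Agent.P207.H442 (ev)
open Vale.Agent.P207.Kat

variable {n : ℕ} {M : Type} [TopologicalSpace M] [ChartedSpace (EV n) M]
  [IsManifold 𝓘(ℝ, EV n) ∞ M] {g : RMetric (EV n) M}
variable [NeZero n] [CompactSpace M] [T2Space M] [Nonempty (Fr g)]
variable [MeasurableSpace M] [BorelSpace M] (D : Dat g)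

theorem c_nonneg (s : ℕ) (u : SmFr g) : 0 ≤ D.c s u := H955.cN_nonneg D.S s u

theorem c_zero (u : SmFr g) : D.c 0 u = ‖(u : C(Fr g, ℝ))‖ := rfl

theorem c_succ (s : ℕ) (u : SmFr g) : D.c (s + 1) u = D.c s u + ∑ a, D.c s (D.S.X a u) := rfl

theorem c_X_le (s : ℕ) (a : Ix n) (u : SmFr g) : D.c s (D.S.X a u) ≤ D.c (s + 1) u :=
  H955.cN_X_le D.S s a u

theorem c_mono {s t : ℕ} (h : s ≤ t) (u : SmFr g) : D.c s u ≤ D.c t u :=
  H955.cN_mono D.S h u

theorem norm_le_c (s : ℕ) (u : SmFr g) : ‖(u : C(Fr g, ℝ))‖ ≤ D.c s u :=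
  c_mono D (Nat.zero_le s) u

/-- a smooth function on the frame bundle, read in the chart at `a` -/
def rs (f : SmFr g) (a : M) : St (Fin n) n → ℝ := rd (fun p => (f : C(Fr g, ℝ)) p) a

theorem contDiffOn_rs (f : SmFr g) (a : M) : ContDiffOn ℝ ∞ (rs f a) (dom g a) := f.2 a

theorem norm_rs_le (f : SmFr g) {a : M} {z : St (Fin n) n} (hz : z ∈ dom g a) :
    ‖rs f a z‖ ≤ ‖(f : C(Fr g, ℝ))‖ := by
  unfold rs
  rw [rd_of_mem _ hz]
  exact (f : C(Fr g, ℝ)).norm_coe_le_norm _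

theorem hasFDerivAt_rs (f : SmFr g) {a : M} {z : St (Fin n) n} (hz : z ∈ dom g a) :
    HasFDerivAt (rs f a) (∑ κ, (cf g a κ z).smulRight (rs (D.S.X (em κ) f) a z)) z := by
  refine hasFDerivAt_rd (horFlows g) (f := fun p => (f : C(Fr g, ℝ)) p)
    (f' := fun κ p => ((D.S.X (em κ) f : SmFr g) : C(Fr g, ℝ)) p)
    (fun κ => ((D.S.X (em κ) f : SmFr g) : C(Fr g, ℝ)).continuous) (fun κ p => ?_) hz
  have h1 := D.S.der (em κ) f p
  refine h1.congr_of_eventuallyEq (Eventually.of_forall fun t => ?_)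
  simp only
  rw [← flowN_em (horFlows g)]
  rfl

/-- **`C^N` bounds on the frame bundle give bounds in the charts of the frame bundle** -/
theorem bd_rs (a : M) {K : Set (St (Fin n) n)} (hK : IsCompact K) (hKd : K ⊆ dom g a) (N : ℕ) :
    ∃ C : ℝ, 0 ≤ C ∧ ∀ f : SmFr g, Bd N K (rs f a) (C * D.c N f) := by
  induction N with
  | zero =>
    refine ⟨1, zero_le_one, fun f => Bd.of_zero fun z hz => ?_⟩
    rw [one_mul]
    exact norm_rs_le f (hKd hz)
  | succ N ih =>
    obtain ⟨C, hC, hb⟩ := ih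
    have hcf : ∀ κ : Kp n, ContDiffOn ℝ ∞ (cf g a κ) (dom g a) := fun κ z hz =>
      (contDiffAt_cf a κ hz).contDiffWithinAt
    choose b hb0 hbb using fun κ : Kp n => Bd.exists_bd hK (isOpen_dom a) hKd (hcf κ) N
    set L : (St (Fin n) n →L[ℝ] ℝ) →L[ℝ] ℝ →L[ℝ] St (Fin n) n →L[ℝ] ℝ :=
      ContinuousLinearMap.smulRightL ℝ (St (Fin n) n) ℝ with hL
    set C' : ℝ := ∑ κ : Kp n, ‖L‖ * 2 ^ N * b κ * C with hC'
    have hC'0 : 0 ≤ C' := Finset.sum_nonneg fun κ _ => by
      have := hb0 κ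
      positivity
    refine ⟨1 + C', by positivity, fun f => Bd.succ (fun z hz => ?_) ?_⟩
    · refine (norm_rs_le f (hKd hz)).trans ((norm_le_c D (N + 1) f).trans ?_)
      rw [add_mul, one_mul]
      exact le_add_of_nonneg_right (mul_nonneg hC'0 (c_nonneg D _ _))
    · have h1 : Bd N K (fun z => ∑ κ ∈ Finset.univ, L (cf g a κ z) (rs (D.S.X (em κ) f) a z))
          (∑ κ, ‖L‖ * 2 ^ N * b κ * (C * D.c N (D.S.X (em κ) f))) := by
        refine Bd.sum Finset.univ (isOpen_dom a) hKd (fun κ => ?_) fun κ => ?_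
        · exact (L.contDiff.comp_contDiffOn (hcf κ)).clm_apply (contDiffOn_rs _ a)
        · exact Bd.bilin L (isOpen_dom a) hKd (hcf κ) (contDiffOn_rs _ a) (hb0 κ) (hbb κ) (hb _)
      have h2 : Bd N K (fderiv ℝ (rs f a))
          (∑ κ, ‖L‖ * 2 ^ N * b κ * (C * D.c N (D.S.X (em κ) f))) := by
        refine h1.congr (isOpen_dom a) hKd fun z hz => ?_
        exact (hasFDerivAt_rs D f hz).fderiv
      refine h2.mono ?_
      have h3 : ∑ κ, ‖L‖ * 2 ^ N * b κ * (C * D.c N (D.S.X (em κ) f)) ≤ C' * D.c (N + 1) f := by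
        rw [hC', Finset.sum_mul]
        refine Finset.sum_le_sum fun κ _ => ?_
        have h4 := c_X_le D N (em κ) f
        have h5 := hb0 κ
        calc ‖L‖ * 2 ^ N * b κ * (C * D.c N (D.S.X (em κ) f)) ≤
            ‖L‖ * 2 ^ N * b κ * (C * D.c (N + 1) f) := by gcongr
          _ = _ := by ring
      refine h3.trans (mul_le_mul_of_nonneg_right (by linarith) (c_nonneg D _ _))

/-! ### the coefficients of the metric -/

/-- the frame vectors of the Gram-Schmidt retraction along `u ↦ (u, P)` -/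
def wv (g : RMetric (EV n) M) (a : M) (P : Fin n → EV n) (i : Fin n) (u : EV n) : EV n :=
  (gsSt ((mt g).coef a) (u, P)).2 i

/-- the dual frame -/
def th (g : RMetric (EV n) M) (a : M) (P : Fin n → EV n) (i : Fin n) (u : EV n) : EV n →L[ℝ] ℝ :=
  (coefL g a u).flip (wv g a P i u)

/-- the tensor `θᵢ ⊗ θⱼ` -/
def tt (g : RMetric (EV n) M) (a : M) (P : Fin n → EV n) (i j : Fin n) (u : EV n) :
    EV n →L[ℝ] EV n →L[ℝ] ℝ := (th g a P i u).smulRight (th g a P j u)

section Loc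

omit [NeZero n] [CompactSpace M] [T2Space M] [Nonempty (Fr g)] [MeasurableSpace M] [BorelSpace M]

theorem contDiffOn_coefL' (g : RMetric (EV n) M) (a : M) :
    ContDiffOn ℝ ∞ (coefL g a) (chartAt (EV n) a).target := (mt g).smooth a

/-- the open set on which the section `u ↦ (u, P)` is regular -/
def sd (g : RMetric (EV n) M) (a : M) (P : Fin n → EV n) : Set (EV n) :=
  {u | ((u, P) : St (Fin n) n) ∈ dom g a}

theorem isOpen_sd (a : M) (P : Fin n → EV n) : IsOpen (sd g a P) :=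
  (isOpen_dom (g := g) a).preimage (Continuous.prodMk_left P)

theorem sd_subset (a : M) (P : Fin n → EV n) : sd g a P ⊆ (chartAt (EV n) a).target :=
  fun _ hu => hu.1

theorem contDiffOn_wv (a : M) (P : Fin n → EV n) (i : Fin n) :
    ContDiffOn ℝ ∞ (wv g a P i) (sd g a P) := by
  intro u hu
  have h1 : ContDiffAt ℝ ∞ (gsSt ((mt g).coef a)) (u, P) :=
    contDiffAt_gsSt ((mt g).isMetricOn a) hu
  have h2 : ContDiffAt ℝ ∞ (fun u : EV n => ((u, P) : St (Fin n) n)) u :=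
    contDiffAt_id.prodMk contDiffAt_const
  have h3 := h1.comp u h2
  have h4 := (Brk.frL (E := EV n) i).contDiff.contDiffAt.comp u h3
  exact h4.contDiffWithinAt

theorem contDiffOn_th (a : M) (P : Fin n → EV n) (i : Fin n) :
    ContDiffOn ℝ ∞ (th g a P i) (sd g a P) := by
  intro u hu
  have h1 : ContDiffAt ℝ ∞ (coefL g a) u :=
    (contDiffOn_coefL' g a).contDiffAt ((chartAt (EV n) a).open_target.mem_nhds hu.1)
  have h2 : ContDiffAt ℝ ∞ (wv g a P i) u :=
    (contDiffOn_wv a P i).contDiffAt ((isOpen_sd a P).mem_nhds hu)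
  have h3 : ContDiffAt ℝ ∞ (fun u => (coefL g a u).flip) u :=
    (ContinuousLinearMap.flipₗᵢ ℝ (EV n) (EV n) ℝ).contDiff.contDiffAt.comp u h1
  exact (h3.clm_apply h2).contDiffWithinAt

theorem contDiffOn_tt (a : M) (P : Fin n → EV n) (i j : Fin n) :
    ContDiffOn ℝ ∞ (tt g a P i j) (sd g a P) :=
  (contDiffOn_th a P i).smulRight (contDiffOn_th a P j)

theorem tt_apply (a : M) (P : Fin n → EV n) (i j : Fin n) (u x y : EV n) :
    tt g a P i j u x y = coefL g a u x (wv g a P i u) * coefL g a u y (wv g a P j u) := rfl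

theorem orth_wv (a : M) (P : Fin n → EV n) {u : EV n} (hu : u ∈ sd g a P) (i j : Fin n) :
    coefL g a u (wv g a P i u) (wv g a P j u) = if i = j then 1 else 0 :=
  orth_gsSt ((mt g).isMetricOn a) (y := (u, P)) hu i j

theorem sum_wv (a : M) (P : Fin n → EV n) {u : EV n} (hu : u ∈ sd g a P) (x : EV n) :
    ∑ i, coefL g a u x (wv g a P i u) • wv g a P i u = x :=
  Brk.sum_orth ((mt g).isMetricOn a) (p := gsSt ((mt g).coef a) (u, P)) hu.1 (by simp [EV])
    (orth_gsSt ((mt g).isMetricOn a) (y := (u, P)) hu) x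

end Loc

section Coef

omit [MeasurableSpace M] [BorelSpace M]

theorem rs_IsK {g' : RMetric (EV n) M} {k : Fin n → Fin n → SmFr g} (hk : IsK g g' k)
    {a : M} {P : Fin n → EV n} {u : EV n} (hu : u ∈ sd g a P) (i j : Fin n) :
    rs (k i j) a (u, P) = coefL g' a u (wv g a P i u) (wv g a P j u) - if i = j then 1 else 0 := by
  unfold rs
  rw [rd_of_mem _ hu]
  have h1 := hk (frOf g a (u, P) hu) i j
  refine h1.trans ?_
  congr 1
  have h2 := inner_chF g' a (f := (frOf g a (u, P) hu).1) (frOf_pt a hu) i j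
  rw [chF_frOf a hu] at h2
  exact h2.symm

/-- the difference of the coefficients of two metrics in terms of `k` -/
theorem coef_sub_eq {g' : RMetric (EV n) M} {k : Fin n → Fin n → SmFr g} (hk : IsK g g' k)
    {a : M} {P : Fin n → EV n} {u : EV n} (hu : u ∈ sd g a P) :
    coefL g' a u - coefL g a u = ∑ i, ∑ j, rs (k i j) a (u, P) • tt g a P i j u := by
  have key : ∀ B : EV n →L[ℝ] EV n →L[ℝ] ℝ, ∀ x y : EV n, B x y =
      ∑ i, ∑ j, B (wv g a P i u) (wv g a P j u) * (coefL g a u x (wv g a P i u) *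
        coefL g a u y (wv g a P j u)) := by
    intro B x y
    conv_lhs => rw [← sum_wv a P hu x, ← sum_wv a P hu y]
    simp only [map_sum, map_smul, sum_apply, smul_apply, smul_eq_mul, Finset.mul_sum]
    rw [Finset.sum_comm]
    refine Finset.sum_congr rfl fun i _ => Finset.sum_congr rfl fun j _ => ?_
    ring
  refine ContinuousLinearMap.ext fun x => ContinuousLinearMap.ext fun y => ?_
  rw [sub_apply, sub_apply]
  simp only [sum_apply, smul_apply, smul_eq_mul, tt_apply]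
  rw [key (coefL g' a u) x y]
  conv_lhs => rw [key (coefL g a u) x y]
  rw [← Finset.sum_sub_distrib]
  refine Finset.sum_congr rfl fun i _ => ?_
  rw [← Finset.sum_sub_distrib]
  refine Finset.sum_congr rfl fun j _ => ?_
  rw [rs_IsK hk hu, orth_wv a P hu, sub_mul]

end Coef

/-- the norm of a tensor -/
theorem cT_nonneg (s : ℕ) (k : Fin n → Fin n → SmFr g) : 0 ≤ D.cT s k :=
  Finset.sum_nonneg fun i _ => Finset.sum_nonneg fun j _ => c_nonneg D s (k i j)

theorem c_le_cT (s : ℕ) (k : Fin n → Fin n → SmFr g) (i j : Fin n) : D.c s (k i j) ≤ D.cT s k := by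
  have h1 : D.c s (k i j) ≤ ∑ j, D.c s (k i j) :=
    Finset.single_le_sum (f := fun j => D.c s (k i j)) (fun j _ => c_nonneg D s _)
      (Finset.mem_univ j)
  refine h1.trans ?_
  exact Finset.single_le_sum (f := fun i => ∑ j, D.c s (k i j))
    (fun i _ => Finset.sum_nonneg fun j _ => c_nonneg D s _) (Finset.mem_univ i)

/-- local version -/
theorem bd_coef_loc (a : M) (N : ℕ) {u₀ : EV n} (hu₀ : u₀ ∈ (chartAt (EV n) a).target) :
    ∃ t ∈ 𝓝 u₀, ∃ C : ℝ, 0 ≤ C ∧ ∀ (g' : RMetric (EV n) M) (k : Fin n → Fin n → SmFr g),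
      IsK g g' k → Bd N t (fun u => coefL g' a u - coefL g a u) (C * D.cT N k) := by
  obtain ⟨f, hf⟩ := H892.exists_frame g ((chartAt (EV n) a).symm u₀)
  set P : Fin n → EV n := (chF a f.1).2 with hP
  have hfa : f.pt ∈ (chartAt (EV n) a).source := by
    rw [hf]
    exact (chartAt (EV n) a).map_target hu₀
  have h1 : chF a f.1 = ((u₀, P) : St (Fin n) n) := by
    refine Prod.ext ?_ rfl
    change chartAt (EV n) a f.pt = u₀
    rw [hf]
    exact (chartAt (EV n) a).right_inv hu₀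
  have hu₀d : u₀ ∈ sd g a P := by
    have h2 := chF_mem_dom (g := g) hfa
    rw [h1] at h2
    exact h2
  obtain ⟨r, hr, hrs⟩ := Metric.nhds_basis_closedBall.mem_iff.1 ((isOpen_sd (g := g) a P).mem_nhds hu₀d)
  set K₀ : Set (EV n) := closedBall u₀ r with hK₀
  have hKc : IsCompact K₀ := isCompact_closedBall _ _
  set s : EV n → St (Fin n) n := fun u => (u, P) with hs
  have hsc : ContDiff ℝ ∞ s := contDiff_id.prodMk contDiff_const
  obtain ⟨C₁, hC₁, hb₁⟩ := bd_rs D a (hKc.image hsc.continuous)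
    (by rintro _ ⟨u, hu, rfl⟩; exact hrs hu) N
  obtain ⟨D₁, -, hD₁⟩ := Bd.exists_bd hKc (isOpen_sd (g := g) a P) hrs hsc.contDiffOn N
  choose B hB0 hB using fun q : Fin n × Fin n =>
    Bd.exists_bd hKc (isOpen_sd (g := g) a P) hrs (contDiffOn_tt (g := g) a P q.1 q.2) N
  set L : ℝ →L[ℝ] (EV n →L[ℝ] EV n →L[ℝ] ℝ) →L[ℝ] (EV n →L[ℝ] EV n →L[ℝ] ℝ) :=
    ContinuousLinearMap.lsmul ℝ ℝ with hL
  set A : ℝ := N.factorial * (max D₁ 1) ^ N * C₁ with hA
  have hA0 : 0 ≤ A := by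
    have : (0 : ℝ) ≤ max D₁ 1 := zero_le_one.trans (le_max_right _ _)
    positivity
  refine ⟨K₀, closedBall_mem_nhds _ hr, ∑ i, ∑ j, ‖L‖ * 2 ^ N * A * B (i, j),
    Finset.sum_nonneg fun i _ => Finset.sum_nonneg fun j _ => by
      have := hB0 (i, j)
      positivity, fun g' k hk => ?_⟩
  have h2 : ∀ i j, ContDiffOn ℝ ∞ (fun u => rs (k i j) a (s u)) (sd g a P) := fun i j =>
    (contDiffOn_rs (k i j) a).comp hsc.contDiffOn fun u hu => hu
  have h3 : ∀ i j, Bd N K₀ (fun u => rs (k i j) a (s u)) (A * D.cT N k) := by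
    intro i j
    have h4 := Bd.comp_le (isOpen_dom a) (isOpen_sd (g := g) a P) hsc.contDiffOn
      (fun u hu => hu) hrs (mapsTo_image s K₀) hD₁ (contDiffOn_rs (k i j) a) (hb₁ (k i j))
    refine h4.mono ?_
    have h5 := c_le_cT D N k i j
    have : (0 : ℝ) ≤ max D₁ 1 := zero_le_one.trans (le_max_right _ _)
    calc N.factorial * (max D₁ 1) ^ N * (C₁ * D.c N (k i j)) ≤
        N.factorial * (max D₁ 1) ^ N * (C₁ * D.cT N k) := by gcongr
      _ = _ := by rw [hA]; ring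
  have h4 : Bd N K₀ (fun u => ∑ i ∈ Finset.univ, ∑ j ∈ Finset.univ,
      L (rs (k i j) a (s u)) (tt g a P i j u))
      (∑ i, ∑ j, ‖L‖ * 2 ^ N * (A * D.cT N k) * B (i, j)) := by
    have h5 : ∀ i j, ContDiffOn ℝ ∞ (fun u => L (rs (k i j) a (s u)) (tt g a P i j u))
        (sd g a P) := fun i j =>
      (L.contDiff.comp_contDiffOn (h2 i j)).clm_apply (contDiffOn_tt a P i j)
    refine Bd.sum Finset.univ (isOpen_sd (g := g) a P) hrs
      (fun i => ContDiffOn.sum fun j _ => h5 i j) fun i => ?_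
    refine Bd.sum Finset.univ (isOpen_sd (g := g) a P) hrs (h5 i) fun j => ?_
    exact Bd.bilin L (isOpen_sd (g := g) a P) hrs (h2 i j) (contDiffOn_tt a P i j)
      (mul_nonneg hA0 (cT_nonneg D N k)) (h3 i j) (hB (i, j))
  have h5 : Bd N K₀ (fun u => coefL g' a u - coefL g a u)
      (∑ i, ∑ j, ‖L‖ * 2 ^ N * (A * D.cT N k) * B (i, j)) :=
    h4.congr (isOpen_sd (g := g) a P) hrs fun u hu => coef_sub_eq hk hu
  refine h5.mono (le_of_eq ?_)
  rw [Finset.sum_mul]
  refine Finset.sum_congr rfl fun i _ => ?_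
  rw [Finset.sum_mul]
  exact Finset.sum_congr rfl fun j _ => by ring

/-- **(D3b)** -/
theorem bd_coef (a : M) {K : Set (EV n)} (hK : IsCompact K)
    (hKt : K ⊆ (chartAt (EV n) a).target) (N : ℕ) :
    ∃ C : ℝ, 0 ≤ C ∧ ∀ (g' : RMetric (EV n) M) (k : Fin n → Fin n → SmFr g),
      IsK g g' k → Bd N K (fun u => coefL g' a u - coefL g a u) (C * D.cT N k) := by
  refine hK.induction_on (p := fun K => ∃ C : ℝ, 0 ≤ C ∧ ∀ (g' : RMetric (EV n) M)
      (k : Fin n → Fin n → SmFr g),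
      IsK g g' k → Bd N K (fun u => coefL g' a u - coefL g a u) (C * D.cT N k)) ?_ ?_ ?_ ?_
  · exact ⟨0, le_rfl, fun g' k _ q _ z hz => absurd hz (notMem_empty z)⟩
  · rintro s t hst ⟨C, hC, h⟩
    exact ⟨C, hC, fun g' k hk q hq z hz => h g' k hk q hq z (hst hz)⟩
  · rintro s t ⟨C, hC, h⟩ ⟨C', hC', h'⟩
    refine ⟨C + C', add_nonneg hC hC', fun g' k hk q hq z hz => ?_⟩
    have h0 := cT_nonneg D N k
    rcases hz with hz | hz
    · refine (h g' k hk q hq z hz).trans ?_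
      nlinarith
    · refine (h' g' k hk q hq z hz).trans ?_
      nlinarith
  · intro u₀ hu₀
    obtain ⟨t, ht, h⟩ := bd_coef_loc D a N (hKt hu₀)
    exact ⟨t, mem_nhdsWithin_of_mem_nhds ht, h⟩

/-- evaluation of a bilinear form -/
def evB (x y : EV n) : (EV n →L[ℝ] EV n →L[ℝ] ℝ) →L[ℝ] ℝ :=
  (ContinuousLinearMap.apply ℝ ℝ y).comp (ContinuousLinearMap.apply ℝ (EV n →L[ℝ] ℝ) x)

theorem evB_apply (x y : EV n) (B : EV n →L[ℝ] EV n →L[ℝ] ℝ) : evB x y B = B x y := rfl

/-- **(D3b), for the coefficients as bilinear forms** -/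
theorem coefL_le_cT (a : M) {K : Set (EV n)} (hK : IsCompact K)
    (hKt : K ⊆ (chartAt (EV n) a).target) (N : ℕ) :
    ∃ C : ℝ, 0 ≤ C ∧ ∀ (g' : RMetric (EV n) M) (k : Fin n → Fin n → SmFr g),
      IsK g g' k → ∀ q ≤ N, ∀ u ∈ K,
        ‖iteratedFDeriv ℝ q (coefL g' a) u - iteratedFDeriv ℝ q (coefL g a) u‖ ≤
          C * D.cT N k := by
  obtain ⟨C, hC, h⟩ := bd_coef D a hK hKt N
  exact ⟨C, hC, fun g' k hk q hq u hu => Bd.of_sub (chartAt (EV n) a).open_target hKt
    (contDiffOn_coefL' g' a) (contDiffOn_coefL' g a) (h g' k hk) hq hu⟩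

/-- **(D3b), for the components** -/
theorem coefIn_le_cT (a : M) {K : Set (EV n)} (hK : IsCompact K)
    (hKt : K ⊆ (chartAt (EV n) a).target) (N : ℕ) :
    ∃ C : ℝ, 0 ≤ C ∧ ∀ (g' : RMetric (EV n) M) (k : Fin n → Fin n → SmFr g),
      IsK g g' k → ∀ j l : Fin n, ∀ q ≤ N, ∀ u ∈ K,
        ‖iteratedFDeriv ℝ q (fun p => coefIn g' a p (EuclideanSpace.single j 1)
            (EuclideanSpace.single l 1)) u
          - iteratedFDeriv ℝ q (fun p => coefIn g a p (EuclideanSpace.single j 1)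
            (EuclideanSpace.single l 1)) u‖ ≤ C * D.cT N k := by
  obtain ⟨C, hC, h⟩ := bd_coef D a hK hKt N
  set L : Fin n → Fin n → (EV n →L[ℝ] EV n →L[ℝ] ℝ) →L[ℝ] ℝ := fun j l =>
    evB (EuclideanSpace.single j 1) (EuclideanSpace.single l 1) with hL
  refine ⟨(∑ j, ∑ l, ‖L j l‖) * C, by positivity, fun g' k hk j l q hq u hu => ?_⟩
  have ho := (chartAt (EV n) a).open_target
  have h1 : Bd N K (fun p => L j l (coefL g' a p - coefL g a p)) (‖L j l‖ * (C * D.cT N k)) :=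
    Bd.clm (L j l) ho hKt ((contDiffOn_coefL' g' a).sub (contDiffOn_coefL' g a)) (h g' k hk)
  have h2 : ∀ g' : RMetric (EV n) M, ContDiffOn ℝ ∞ (fun p => coefIn g' a p
      (EuclideanSpace.single j 1) (EuclideanSpace.single l 1)) (chartAt (EV n) a).target :=
    fun g' => (L j l).contDiff.comp_contDiffOn (contDiffOn_coefL' g' a)
  have h3 : Bd N K (fun p => coefIn g' a p (EuclideanSpace.single j 1)
      (EuclideanSpace.single l 1) - coefIn g a p (EuclideanSpace.single j 1)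
      (EuclideanSpace.single l 1)) (‖L j l‖ * (C * D.cT N k)) := h1
  refine (Bd.of_sub ho hKt (h2 g') (h2 g) h3 hq hu).trans ?_
  have h4 : ‖L j l‖ ≤ ∑ j, ∑ l, ‖L j l‖ := by
    have h5 : ‖L j l‖ ≤ ∑ l, ‖L j l‖ :=
      Finset.single_le_sum (f := fun l => ‖L j l‖) (fun _ _ => norm_nonneg _) (Finset.mem_univ l)
    exact h5.trans (Finset.single_le_sum (f := fun j => ∑ l, ‖L j l‖)
      (fun _ _ => Finset.sum_nonneg fun _ _ => norm_nonneg _) (Finset.mem_univ j))
  have h5 := mul_nonneg hC (cT_nonneg D N k)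
  calc ‖L j l‖ * (C * D.cT N k) ≤ (∑ j, ∑ l, ‖L j l‖) * (C * D.cT N k) :=
        mul_le_mul_of_nonneg_right h4 h5
    _ = _ := by ring

end Vale.Agent.P207.H440
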