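import Vale.Agent.P207.H440.Cmp

/-!
# P207 / H440: functions with continuous derivatives along the flows are smooth
-/

open scoped Manifold ContDiff ENNReal Topology
open Bundle MeasureTheory Set Filter Topology

noncomputable section

set_option maxSynthPendingDepth 3
set_option linter.unusedSectionVars false

namespace Vale.Agent.P207.H440

open Vale.Agent.P207.Q Vale.Agent.P207.Q.Fl
open Vale.Agent.P255 (RMetric coefIn Gam Riem IsGeo Metric Npc ExpSys toMetric geo expg cc trans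
  IsGeodesic coefL chris chrisB IsMetricOn covD)

variable {n : ℕ} {M : Type} [TopologicalSpace M] [ChartedSpace (EV n) M]
  [IsManifold 𝓘(ℝ, EV n) ∞ M] {g : RMetric (EV n) M}

section Rt

variable [Nonempty (Fr g)] [NeZero n]

/-- the retraction of a chart onto the frames -/
def rt (g : RMetric (EV n) M) [NeZero n] [Nonempty (Fr g)] (a : M) (y : St (Fin n) n) : Fr g :=
  invF g a (gsSt ((mt g).coef a) y)

theorem rt_eq {a : M} {y : St (Fin n) n} (hy : y ∈ dom g a) : rt g a y = frOf g a y hy :=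
  Subtype.ext (invF_val g a _ hy.1 (orth_gsSt ((mt g).isMetricOn a) hy))

theorem rd_eq {V : Type} [NormedAddCommGroup V] [NormedSpace ℝ V] (f : Fr g → V) {a : M}
    {y : St (Fin n) n} (hy : y ∈ dom g a) : rd f a y = f (rt g a y) := by
  rw [rd_of_mem f hy, rt_eq hy]

theorem rt_chF (a : M) (p : Fr g) (h : p.pt ∈ (chartAt (EV n) a).source) :
    rt g a (chF a p.1) = p := retr_chF a p h

theorem chF_rt {a : M} {y : St (Fin n) n} (hy : y ∈ dom g a) :
    chF a (rt g a y).1 = gsSt ((mt g).coef a) y := by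
  rw [rt_eq hy, chF_frOf a hy]

theorem rt_pt {a : M} {y : St (Fin n) n} (hy : y ∈ dom g a) :
    (rt g a y).pt ∈ (chartAt (EV n) a).source := by
  rw [rt_eq hy]
  exact frOf_pt a hy

theorem rt_gsSt {a : M} {y : St (Fin n) n} (hy : y ∈ dom g a) :
    rt g a (gsSt ((mt g).coef a) y) = rt g a y := by
  rw [← chF_rt hy, rt_chF a _ (rt_pt hy)]

theorem orth_gs {a : M} {y : St (Fin n) n} (hy : y ∈ dom g a) :
    Orth ((mt g).coef a (gsSt ((mt g).coef a) y).1) (gsSt ((mt g).coef a) y).2 :=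
  orth_gsSt ((mt g).isMetricOn a) hy

end Rt

variable (H : HorFlows g) (l : List (Kp n))

section Gm

variable [NeZero n] [Nonempty (Fr g)]

/-- the coordinates at the frame `rt g a z` in the chart at `a` -/
def gm (a : M) (q : St (Fin n) n × Pm n) : St (Fin n) n :=
  chF a (cmp H l q.2.1 (rt g a q.1)).1 +
    ∑ u : Up n, q.2.2 u • Brk.verL (Matrix.single u.1.1 u.1.2 (1 : ℝ))
      (chF a (cmp H l q.2.1 (rt g a q.1)).1)

theorem gm_eq (a : M) (q : St (Fin n) n × Pm n) :
    gm H l a q = stR (1 + upm q.2.2) (chF a (cmp H l q.2.1 (rt g a q.1)).1) := by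
  unfold gm
  generalize chF a (cmp H l q.2.1 (rt g a q.1)).1 = y
  refine Prod.ext ?_ (funext fun c => ?_)
  · simp only [Prod.fst_add, Prod.fst_sum, Prod.smul_fst, Brk.verL_apply, stR]
    simp [Brk.ver]
  · simp only [Prod.snd_add, Prod.snd_sum, Prod.smul_snd, Brk.verL_apply, stR, Pi.add_apply,
      Finset.sum_apply, Pi.smul_apply, ver_snd, upm, Matrix.add_apply, Matrix.sum_apply,
      Matrix.smul_apply, smul_eq_mul, add_smul, Finset.sum_add_distrib, Finset.sum_smul,
      Finset.smul_sum, smul_smul]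
    congr 1
    · simp [Matrix.one_apply]
    · exact Finset.sum_comm

theorem rt_gm {a : M} {q : St (Fin n) n × Pm n}
    (h : (cmp H l q.2.1 (rt g a q.1)).pt ∈ (chartAt (EV n) a).source)
    (hu : ∀ j, 0 < 1 + upm q.2.2 j j) :
    gm H l a q ∈ dom g a ∧ rt g a (gm H l a q) = cmp H l q.2.1 (rt g a q.1) := by
  have hT : ∀ i j, j < i → (1 + upm q.2.2) i j = 0 := by
    intro i j hij
    rw [Matrix.add_apply, upm_of_lt _ hij, Matrix.one_apply_ne hij.ne', add_zero]
  have hp : ∀ j, 0 < (1 + upm q.2.2) j j := by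
    intro j
    rw [Matrix.add_apply, Matrix.one_apply_eq]
    exact hu j
  have ho := orth_chF h
  rw [gm_eq]
  refine ⟨stR_mem_gsDom ((chartAt (EV n) a).map_source h) ho hT hp, ?_⟩
  unfold rt
  rw [show (cmp H l q.2.1 (invF g a (gsSt ((mt g).coef a) q.1))) =
    cmp H l q.2.1 (rt g a q.1) from rfl, gsSt_stR ho hT hp]
  exact invF_chF g a _ h

variable [CompactSpace M] [T2Space M]

theorem sm_chF {F : Type} [NormedAddCommGroup F] [NormedSpace ℝ F] [FiniteDimensional ℝ F]
    {u : F → Fr g} {x : F} (hu : (frSys g).dif.At u x) {a : M}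
    (ha : (u x).pt ∈ (chartAt (EV n) a).source) : Sm (fun y => chF a (u y).1) x := by
  have hc : ContinuousAt u x := (frSys g).at_cont hu
  have hS : ∀ᶠ y in 𝓝 x, (u y).pt ∈ (chartAt (EV n) a).source :=
    hc.eventually (((chartAt (EV n) a).open_source.preimage Fr.continuous_pt).mem_nhds ha)
  filter_upwards [hS, hu] with y hy1 hy2
  exact hy2.2 a hy1

theorem sm_gm {a : M} {q : St (Fin n) n × Pm n} (hz : q.1 ∈ dom g a)
    (hs : (cmp H l q.2.1 (rt g a q.1)).pt ∈ (chartAt (EV n) a).source) : Sm (gm H l a) q := by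
  have h1 : (frSys g).dif.At (fun q : St (Fin n) n × Pm n => rt g a q.1) q :=
    (frSys g).dif.comp (u := fun z => rt g a z) (g := Prod.fst) (at_retr a hz)
      (Sm.of_contDiff contDiff_fst _)
  have h2 : Sm (fun q : St (Fin n) n × Pm n => q.2.1) q :=
    Sm.of_contDiff (contDiff_fst.comp contDiff_snd) _
  have h3 : Sm (fun q : St (Fin n) n × Pm n => chF a (cmp H l q.2.1 (rt g a q.1)).1) q :=
    sm_chF (at_cmp H l h1 h2) hs
  refine h3.add (Sm.sum fun u _ => ?_)
  refine Sm.smul ?_ ?_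
  · exact Sm.of_contDiff ((ContinuousLinearMap.proj (R := ℝ) (φ := fun _ : Up n => ℝ) u).contDiff.comp
      (contDiff_snd.comp contDiff_snd)) _
  · exact (Sm.clm (Brk.verL (E := EV n) (Matrix.single u.1.1 u.1.2 (1 : ℝ))) _).comp' h3

variable {l}

theorem hasFDerivAt_chF_cmp (hl : l.Nodup) (hall : ∀ κ, κ ∈ l) {a : M} {p : Fr g}
    (hp : p.pt ∈ (chartAt (EV n) a).source) :
    HasFDerivAt (fun t : Kp n → ℝ => chF a (cmp H l t p).1)
      (∑ κ : Kp n, (ContinuousLinearMap.proj (R := ℝ) (φ := fun _ : Kp n => ℝ) κ).smulRight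
        ((zf g κ).Z a (chF a p.1))) 0 := by
  have hp0 : (cmp H l 0 p).pt ∈ (chartAt (EV n) a).source := by
    rw [cmp_zero]
    exact hp
  have h1 : (frSys g).dif.At (fun _ : Kp n → ℝ => p) 0 := by
    refine Eventually.of_forall fun y => ⟨continuousAt_const, fun i _ => contDiffAt_const⟩
  have h2 : Sm (fun t : Kp n → ℝ => chF a (cmp H l t p).1) 0 :=
    sm_chF (at_cmp H l h1 (Sm.id' _)) hp0
  have h3 := h2.differentiableAt.hasFDerivAt
  set D := fderiv ℝ (fun t : Kp n → ℝ => chF a (cmp H l t p).1) 0 with hD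
  have h4 : ∀ κ, D (Pi.single κ 1) = (zf g κ).Z a (chF a p.1) := by
    intro κ
    have h5 : HasDerivAt (fun s : ℝ => (Pi.single κ s : Kp n → ℝ)) (Pi.single κ 1) 0 := by
      rw [hasDerivAt_pi]
      intro μ
      by_cases h : μ = κ
      · subst h
        simpa using hasDerivAt_id' (0 : ℝ)
      · simpa [Pi.single_eq_of_ne h] using hasDerivAt_const (0 : ℝ) (0 : ℝ)
    have h6 : HasFDerivAt (fun t : Kp n → ℝ => chF a (cmp H l t p).1) D
        ((fun s : ℝ => (Pi.single κ s : Kp n → ℝ)) 0) := by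
      simpa using h3
    have h7 := h6.comp_hasDerivAt (0 : ℝ) h5
    have h8 : (fun s : ℝ => chF a (cmp H l (Pi.single κ s) p).1) =
        fun s => chF a (fl H κ s p).1 := by
      funext s
      rw [cmp_single H hl (hall κ)]
    have h9 := (isFlow_fl H κ).eqn a p 0 (by rw [fl_zero]; exact hp)
    rw [fl_zero] at h9
    have h10 : HasDerivAt (fun s : ℝ => chF a (cmp H l (Pi.single κ s) p).1)
        (D (Pi.single κ 1)) 0 := h7
    rw [h8] at h10
    exact h10.unique h9
  refine h3.congr_fderiv (Eq.symm (ContinuousLinearMap.ext fun t => ?_))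
  have h5 : t = ∑ κ, t κ • (Pi.single κ (1 : ℝ) : Kp n → ℝ) := by
    funext μ
    simp [Finset.sum_apply, Pi.single_apply]
  conv_rhs => rw [h5]
  rw [map_sum, sum_apply]
  refine Finset.sum_congr rfl fun κ _ => ?_
  rw [map_smul, h4]
  rfl

theorem hasFDerivAt_gm (hl : l.Nodup) (hall : ∀ κ, κ ∈ l) {a : M} {z : St (Fin n) n}
    (hz : z ∈ dom g a) : HasFDerivAt (fun x : Pm n => gm H l a (z, x))
      (Lm g a (gsSt ((mt g).coef a) z)) 0 := by
  have h1 := hasFDerivAt_chF_cmp H hl hall (rt_pt hz)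
  rw [chF_rt hz] at h1
  have h2 : HasFDerivAt (fun x : Pm n => x.1) (ContinuousLinearMap.fst ℝ (Kp n → ℝ) (Up n → ℝ))
      0 := (ContinuousLinearMap.fst ℝ (Kp n → ℝ) (Up n → ℝ)).hasFDerivAt
  have h3 : HasFDerivAt (fun x : Pm n => chF a (cmp H l x.1 (rt g a z)).1)
      ((∑ κ : Kp n, (ContinuousLinearMap.proj (R := ℝ) (φ := fun _ : Kp n => ℝ) κ).smulRight
        ((zf g κ).Z a (gsSt ((mt g).coef a) z))).comp
          (ContinuousLinearMap.fst ℝ (Kp n → ℝ) (Up n → ℝ))) 0 := by
    exact HasFDerivAt.comp (g := fun t : Kp n → ℝ => chF a (cmp H l t (rt g a z)).1)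
      (0 : Pm n) (by exact h1) h2
  have h4 : ∀ u : Up n, HasFDerivAt (fun x : Pm n => x.2 u •
      Brk.verL (Matrix.single u.1.1 u.1.2 (1 : ℝ)) (chF a (cmp H l x.1 (rt g a z)).1))
      (((ContinuousLinearMap.proj (R := ℝ) (φ := fun _ : Up n => ℝ) u).comp
      (ContinuousLinearMap.snd ℝ (Kp n → ℝ) (Up n → ℝ))).smulRight
        (Brk.verL (Matrix.single u.1.1 u.1.2 (1 : ℝ)) (gsSt ((mt g).coef a) z))) 0 := by
    intro u
    have h5 : HasFDerivAt (fun x : Pm n => x.2 u)
        ((ContinuousLinearMap.proj (R := ℝ) (φ := fun _ : Up n => ℝ) u).comp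
      (ContinuousLinearMap.snd ℝ (Kp n → ℝ) (Up n → ℝ))) 0 :=
      ((ContinuousLinearMap.proj (R := ℝ) (φ := fun _ : Up n => ℝ) u).comp
      (ContinuousLinearMap.snd ℝ (Kp n → ℝ) (Up n → ℝ))).hasFDerivAt
    have h6 := (Brk.verL (E := EV n) (Matrix.single u.1.1 u.1.2 (1 : ℝ))).hasFDerivAt.comp
      (0 : Pm n) h3
    have h7 := h5.smul h6
    refine h7.congr_fderiv ?_
    refine ContinuousLinearMap.ext fun x => ?_
    simp only [Prod.snd_zero, Pi.zero_apply, zero_smul, zero_add, Function.comp_apply,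
      Prod.fst_zero, cmp_zero, chF_rt hz]
  have h5 := h3.add (HasFDerivAt.fun_sum fun u (_ : u ∈ Finset.univ) => h4 u)
  refine h5.congr_fderiv ?_
  refine ContinuousLinearMap.ext fun x => ?_
  simp only [add_apply, sum_apply, Lm_apply, ContinuousLinearMap.comp_apply,
    ContinuousLinearMap.smulRight_apply, ContinuousLinearMap.proj_apply,
    ContinuousLinearMap.coe_fst', ContinuousLinearMap.coe_snd']

theorem gm_zero {a : M} {z : St (Fin n) n} (hz : z ∈ dom g a) :
    gm H l a (z, 0) = gsSt ((mt g).coef a) z := by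
  unfold gm
  simp only [Prod.fst_zero, cmp_zero, Prod.snd_zero, Pi.zero_apply, zero_smul,
    Finset.sum_const_zero, add_zero, chF_rt hz]

end Gm

end Vale.Agent.P207.H440
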