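import Vale.Agent.P207.H440.CL

/-!
# P207 / H440: functions with continuous derivatives along the flows are smooth (2)
-/

open scoped Manifold ContDiff ENNReal Topology
open Bundle MeasureTheory Set Filter Topology

noncomputable section

set_option maxSynthPendingDepth 3
set_option linter.unusedSectionVars false

namespace Vale.Agent.P207.H440

open Vale.Agent.P207.Q Vale.Agent.P207.Q.Fl
open Vale.Agent.P255 (RMetric coefIn Gam Riem IsGeo Metric Npc ExpSys toMetric geo expg cc trans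
  IsGeodesic coefL chris chrisB IsMetricOn covD)

variable {n : ℕ} {M : Type} [TopologicalSpace M] [ChartedSpace (EV n) M]
  [IsManifold 𝓘(ℝ, EV n) ∞ M] {g : RMetric (EV n) M}
variable [NeZero n] [CompactSpace M] [T2Space M]
variable (H : HorFlows g)
variable {V : Type} [NormedAddCommGroup V] [NormedSpace ℝ V]

/-- derivatives along the flow at all times -/
theorem hasDerivAt_fl {κ : Kp n} {f f' : Fr g → V}
    (h : ∀ p, HasDerivAt (fun s => f (fl H κ s p)) (f' p) 0) (p : Fr g) (t : ℝ) :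
    HasDerivAt (fun s => f (fl H κ s p)) (f' (fl H κ t p)) t := by
  have h1 := h (fl H κ t p)
  have h2 : (fun s => f (fl H κ s (fl H κ t p))) = fun s => f (fl H κ (s + t) p) := by
    funext s
    rw [fl_add]
  rw [h2] at h1
  have h4 : HasDerivAt (fun s => f (fl H κ (s + t) p)) (f' (fl H κ t p)) (t - t) := by
    rw [sub_self]
    exact h1
  have h5 := h4.comp_sub_const t t
  simpa using h5

/-- increments along one flow -/
theorem eventually_incr {κ : Kp n} {f f' : Fr g → V} (hc : Continuous f')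
    (h : ∀ p, HasDerivAt (fun s => f (fl H κ s p)) (f' p) 0) (p : Fr g) {ε : ℝ} (hε : 0 < ε) :
    ∀ᶠ q : ℝ × Fr g in 𝓝 (0, p), ‖f (fl H κ q.1 q.2) - f q.2 - q.1 • f' p‖ ≤ ε * |q.1| := by
  have h1 : ContinuousAt (fun q : ℝ × Fr g => f' (fl H κ q.1 q.2)) (0, p) :=
    (hc.comp (continuous_fl H κ)).continuousAt
  have h2 : ∀ᶠ q : ℝ × Fr g in 𝓝 (0, p), ‖f' (fl H κ q.1 q.2) - f' p‖ < ε := by
    have h3 : Tendsto (fun q : ℝ × Fr g => ‖f' (fl H κ q.1 q.2) - f' p‖) (𝓝 (0, p)) (𝓝 0) := by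
      have h4 := (h1.tendsto.sub_const (f' p)).norm
      simpa [fl_zero] using h4
    exact h3.eventually (gt_mem_nhds hε)
  rw [nhds_prod_eq] at h2 ⊢
  obtain ⟨A, hA, B, hB, hAB⟩ := Filter.mem_prod_iff.1 h2
  obtain ⟨δ, hδ, hδA⟩ := Metric.mem_nhds_iff.1 hA
  refine Filter.mem_prod_iff.2 ⟨Metric.ball 0 δ, Metric.ball_mem_nhds 0 hδ, B, hB, ?_⟩
  rintro ⟨s, q⟩ ⟨hs, hq⟩
  change ‖f (fl H κ s q) - f q - s • f' p‖ ≤ ε * |s|
  have h3 : ∀ r ∈ Metric.ball (0 : ℝ) δ, HasDerivWithinAt
      (fun r => f (fl H κ r q) - r • f' p) (f' (fl H κ r q) - f' p) (Metric.ball 0 δ) r := by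
    intro r _
    have h4 := hasDerivAt_fl H h q r
    have h5 : HasDerivAt (fun r : ℝ => r • f' p) (f' p) r := by
      simpa using (hasDerivAt_id' r).smul_const (f' p)
    exact (h4.sub h5).hasDerivWithinAt
  have h4 : ∀ r ∈ Metric.ball (0 : ℝ) δ, ‖f' (fl H κ r q) - f' p‖ ≤ ε := fun r hr =>
    (hAB (show (r, q) ∈ A ×ˢ B from ⟨hδA hr, hq⟩)).le
  have h5 := Convex.norm_image_sub_le_of_norm_hasDerivWithin_le h3 h4 (convex_ball (0 : ℝ) δ)
    (Metric.mem_ball_self hδ) hs
  have h6 : f (fl H κ s q) - s • f' p - (f (fl H κ 0 q) - (0 : ℝ) • f' p) =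
      f (fl H κ s q) - f q - s • f' p := by
    rw [fl_zero, zero_smul, sub_zero]
    abel
  rw [h6, sub_zero, Real.norm_eq_abs] at h5
  exact h5

/-- the derivative at the origin of a function in the coordinates given by the flows -/
theorem hasFDerivAt_cmp {f : Fr g → V} {f' : Kp n → Fr g → V} (hc : ∀ κ, Continuous (f' κ))
    (h : ∀ κ p, HasDerivAt (fun s => f (fl H κ s p)) (f' κ p) 0) (l : List (Kp n)) (p : Fr g) :
    HasFDerivAt (fun t : Kp n → ℝ => f (cmp H l t p))
      ((l.map fun κ => (ContinuousLinearMap.proj (R := ℝ) (φ := fun _ : Kp n => ℝ) κ).smulRight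
        (f' κ p)).sum) 0 := by
  induction l with
  | nil =>
    simp only [cmp_nil, List.map_nil, List.sum_nil]
    exact hasFDerivAt_const _ _
  | cons κ l ih =>
    rw [List.map_cons, List.sum_cons]
    simp only [cmp_cons]
    have h1 : HasFDerivAt (fun t : Kp n → ℝ => f (fl H κ (t κ) (cmp H l t p)) - f (cmp H l t p))
        ((ContinuousLinearMap.proj (R := ℝ) (φ := fun _ : Kp n => ℝ) κ).smulRight (f' κ p)) 0 := by
      rw [hasFDerivAt_iff_isLittleO_nhds_zero]
      simp only [zero_add, Pi.zero_apply, fl_zero, sub_self, sub_zero]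
      rw [Asymptotics.isLittleO_iff]
      intro ε hε
      have h2 := eventually_incr H (hc κ) (h κ) p hε
      have h3 : Tendsto (fun t : Kp n → ℝ => (t κ, cmp H l t p)) (𝓝 0) (𝓝 (0, p)) := by
        have h4 : Continuous fun t : Kp n → ℝ => (t κ, cmp H l t p) :=
          (continuous_apply κ).prodMk ((continuous_cmp H l).comp (Continuous.prodMk_left p))
        have h5 := h4.tendsto 0
        simpa [cmp_zero] using h5
      filter_upwards [h3.eventually h2] with t ht
      have h5 : |t κ| ≤ ‖t‖ := by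
        rw [← Real.norm_eq_abs]
        exact norm_le_pi_norm t κ
      exact ht.trans (mul_le_mul_of_nonneg_left h5 hε.le)
    have h2 := h1.add ih
    refine h2.congr_of_eventuallyEq (Eventually.of_forall fun t => ?_)
    simp

theorem hasFDerivAt_cmp' {f : Fr g → V} {f' : Kp n → Fr g → V} (hc : ∀ κ, Continuous (f' κ))
    (h : ∀ κ p, HasDerivAt (fun s => f (fl H κ s p)) (f' κ p) 0) {l : List (Kp n)} (hl : l.Nodup)
    (hall : ∀ κ, κ ∈ l) (p : Fr g) :
    HasFDerivAt (fun t : Kp n → ℝ => f (cmp H l t p))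
      (∑ κ, (ContinuousLinearMap.proj (R := ℝ) (φ := fun _ : Kp n => ℝ) κ).smulRight
        (f' κ p)) 0 := by
  classical
  have h1 := hasFDerivAt_cmp H hc h l p
  have h2 : l.toFinset = Finset.univ := by
    ext κ
    simp [hall κ]
  rw [← h2, List.sum_toFinset _ hl]
  exact h1

variable [Nonempty (Fr g)]

/-- the coefficient of the `κ`-th derivative in the differential of a function read in a chart -/
def cf (g : RMetric (EV n) M) (a : M) (κ : Kp n) (z : St (Fin n) n) : St (Fin n) n →L[ℝ] ℝ :=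
  ((ContinuousLinearMap.proj (R := ℝ) (φ := fun _ : Kp n => ℝ) κ).comp
      (ContinuousLinearMap.fst ℝ (Kp n → ℝ) (Up n → ℝ))).comp
    ((ContinuousLinearMap.inverse (Lm g a (gsSt ((mt g).coef a) z))).comp
      (fderiv ℝ (gsSt ((mt g).coef a)) z))

omit [NeZero n] [CompactSpace M] [T2Space M] [Nonempty (Fr g)] in
theorem contDiffAt_cf (a : M) (κ : Kp n) {z : St (Fin n) n} (hz : z ∈ dom g a) :
    ContDiffAt ℝ ∞ (cf g a κ) z := by
  have h1 : ContDiffAt ℝ ∞ (gsSt ((mt g).coef a)) z := contDiffAt_gsSt ((mt g).isMetricOn a) hz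
  have h2 : ContDiffAt ℝ ∞ (fderiv ℝ (gsSt ((mt g).coef a))) z :=
    h1.fderiv_right (m := ∞) (by simp)
  obtain ⟨e, he⟩ := exists_equiv (g := g) (a := a) (orth_gsSt ((mt g).isMetricOn a) hz)
  have h3 : ContDiffAt ℝ ∞ (fun z => ContinuousLinearMap.inverse
      (Lm g a (gsSt ((mt g).coef a) z))) z := by
    have h4 : ContDiffAt ℝ ∞ (fun z => Lm g a (gsSt ((mt g).coef a) z)) z :=
      (contDiffAt_Lm (g := g) a (y := gsSt ((mt g).coef a) z) hz.1).comp z h1
    have h5 : ContDiffAt ℝ ∞ (ContinuousLinearMap.inverse : (Pm n →L[ℝ] St (Fin n) n) → _)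
        (Lm g a (gsSt ((mt g).coef a) z)) := by
      rw [← he]
      exact contDiffAt_map_inverse e
    exact h5.comp z h4
  exact contDiffAt_const.clm_comp (h3.clm_comp h2)

/-- **the differential of a function with continuous derivatives along the flows** -/
theorem hasFDerivAt_rd {f : Fr g → V} {f' : Kp n → Fr g → V} (hc : ∀ κ, Continuous (f' κ))
    (h : ∀ κ p, HasDerivAt (fun s => f (fl H κ s p)) (f' κ p) 0) {a : M} {z : St (Fin n) n}
    (hz : z ∈ dom g a) :
    HasFDerivAt (rd f a) (∑ κ, (cf g a κ z).smulRight (rd (f' κ) a z)) z := by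
  obtain ⟨l, hl, hall⟩ : ∃ l : List (Kp n), l.Nodup ∧ ∀ κ, κ ∈ l :=
    ⟨Finset.univ.toList, Finset.nodup_toList _, fun κ => by simp⟩
  set z₁ := gsSt ((mt g).coef a) z with hz₁
  set p := rt g a z with hp
  have hz₁d : z₁ ∈ dom g a := gsSt_mem_dom a hz
  have hgs : gsSt ((mt g).coef a) z₁ = z₁ := gsSt_of_orth (orth_gs hz)
  have hrt : rt g a z₁ = p := rt_gsSt hz
  have hppt : p.pt ∈ (chartAt (EV n) a).source := rt_pt hz
  obtain ⟨e, he⟩ := exists_equiv (g := g) (a := a) (y := z₁) (orth_gs hz)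
  have hD := hasFDerivAt_gm H hl hall hz₁d
  rw [hgs, ← he] at hD
  have hS : Sm (gm H l a) (z₁, 0) := by
    refine sm_gm H l (q := (z₁, 0)) hz₁d ?_
    simp only [Prod.fst_zero, cmp_zero]
    rw [hrt]
    exact hppt
  set ψ : Pm n → St (Fin n) n := fun x => gm H l a (z₁, x) with hψ
  have hψc : ContDiffAt ℝ ∞ ψ 0 :=
    hS.contDiffAt.comp (0 : Pm n) (contDiffAt_const.prodMk contDiffAt_id)
  have hst : HasStrictFDerivAt ψ (e : Pm n →L[ℝ] St (Fin n) n) 0 :=
    hψc.hasStrictFDerivAt' hD (by simp)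
  have hψ0 : ψ 0 = z₁ := by rw [hψ]; simp only; rw [gm_zero H hz₁d, hgs]
  set σ := hst.localInverse ψ e 0 with hσ
  have hσd : HasStrictFDerivAt σ (e.symm : St (Fin n) n →L[ℝ] Pm n) z₁ := by
    rw [← hψ0]
    exact hst.to_localInverse
  have hσ0 : σ z₁ = 0 := by
    rw [← hψ0]
    exact hst.localInverse_apply_image
  have hσr : ∀ᶠ y in 𝓝 z₁, ψ (σ y) = y := by
    rw [← hψ0]
    exact hst.eventually_right_inverse
  have hσt : Tendsto σ (𝓝 z₁) (𝓝 0) := by
    have := hσd.continuousAt.tendsto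
    rwa [hσ0] at this
  have hev : ∀ᶠ x : Pm n in 𝓝 0, (cmp H l x.1 p).pt ∈ (chartAt (EV n) a).source ∧
      ∀ j, 0 < 1 + upm x.2 j j := by
    refine Filter.Eventually.and ?_ (eventually_all.2 fun j => ?_)
    · have h1 : Continuous fun x : Pm n => (cmp H l x.1 p).pt :=
        Fr.continuous_pt.comp ((continuous_cmp H l).comp (continuous_fst.prodMk continuous_const))
      refine h1.continuousAt.preimage_mem_nhds ((chartAt (EV n) a).open_source.mem_nhds ?_)
      simp only [Prod.fst_zero, cmp_zero]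
      exact hppt
    · have h1 : Continuous fun x : Pm n => 1 + upm x.2 j j := by
        have h2 : (fun x : Pm n => 1 + upm x.2 j j) = fun x : Pm n => 1 + x.2 ⟨(j, j), le_rfl⟩ := by
          funext x
          rw [← upm_of_le x.2 ⟨(j, j), le_rfl⟩]
        rw [h2]
        fun_prop
      refine h1.continuousAt.eventually (lt_mem_nhds ?_)
      have h3 := upm_of_le (0 : Up n → ℝ) ⟨(j, j), le_rfl⟩
      simp only [Pi.zero_apply] at h3
      simp only [Prod.snd_zero, h3]
      norm_num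
  have hφ := hasFDerivAt_cmp' H hc h hl hall p
  have h4 : HasFDerivAt (fun y => f (cmp H l (σ y).1 p))
      (((∑ κ, (ContinuousLinearMap.proj (R := ℝ) (φ := fun _ : Kp n => ℝ) κ).smulRight
        (f' κ p)).comp (ContinuousLinearMap.fst ℝ (Kp n → ℝ) (Up n → ℝ))).comp
          (e.symm : St (Fin n) n →L[ℝ] Pm n)) z₁ := by
    have h5 : HasFDerivAt (fun y => (σ y).1) ((ContinuousLinearMap.fst ℝ (Kp n → ℝ)
        (Up n → ℝ)).comp (e.symm : St (Fin n) n →L[ℝ] Pm n)) z₁ :=
      (ContinuousLinearMap.fst ℝ (Kp n → ℝ) (Up n → ℝ)).hasFDerivAt.comp z₁ hσd.hasFDerivAt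
    have h6 : HasFDerivAt (fun t : Kp n → ℝ => f (cmp H l t p))
        (∑ κ, (ContinuousLinearMap.proj (R := ℝ) (φ := fun _ : Kp n => ℝ) κ).smulRight
        (f' κ p)) (σ z₁).1 := by
      rw [hσ0]
      exact hφ
    exact h6.comp z₁ h5
  have h5 : HasFDerivAt (rd f a)
      (((∑ κ, (ContinuousLinearMap.proj (R := ℝ) (φ := fun _ : Kp n => ℝ) κ).smulRight
        (f' κ p)).comp (ContinuousLinearMap.fst ℝ (Kp n → ℝ) (Up n → ℝ))).comp
          (e.symm : St (Fin n) n →L[ℝ] Pm n)) z₁ := by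
    refine h4.congr_of_eventuallyEq ?_
    filter_upwards [hσr, hσt.eventually hev] with y hy1 hy2
    have h6 := rt_gm H l (a := a) (q := (z₁, σ y)) (by
      simp only
      rw [hrt]
      exact hy2.1) hy2.2
    have h7 : gm H l a (z₁, σ y) = y := hy1
    rw [h7] at h6
    rw [rd_eq f h6.1, h6.2, hrt]
  have h6 : HasFDerivAt (gsSt ((mt g).coef a)) (fderiv ℝ (gsSt ((mt g).coef a)) z) z :=
    ((contDiffAt_gsSt ((mt g).isMetricOn a) hz).differentiableAt (by simp)).hasFDerivAt
  have h7 := HasFDerivAt.comp z (g := rd f a) h5 h6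
  have h8 : HasFDerivAt (rd f a) ((((∑ κ, (ContinuousLinearMap.proj (R := ℝ)
      (φ := fun _ : Kp n => ℝ) κ).smulRight
        (f' κ p)).comp (ContinuousLinearMap.fst ℝ (Kp n → ℝ) (Up n → ℝ))).comp
          (e.symm : St (Fin n) n →L[ℝ] Pm n)).comp (fderiv ℝ (gsSt ((mt g).coef a)) z)) z := by
    refine h7.congr_of_eventuallyEq ?_
    filter_upwards [(isOpen_dom (g := g) a).mem_nhds hz] with y hy
    rw [Function.comp_apply, rd_eq f hy, rd_eq f (gsSt_mem_dom a hy), rt_gsSt hy]
  refine h8.congr_fderiv ?_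
  refine ContinuousLinearMap.ext fun w => ?_
  simp only [cf, ContinuousLinearMap.comp_apply, sum_apply, ContinuousLinearMap.smulRight_apply,
    ContinuousLinearMap.proj_apply, ContinuousLinearMap.coe_fst', ContinuousLinearEquiv.coe_coe]
  rw [← he, ContinuousLinearMap.inverse_equiv]
  refine Finset.sum_congr rfl fun κ _ => ?_
  rw [rd_eq (f' κ) hz]
  rfl

theorem continuous_of_deriv {f : Fr g → V} {f' : Kp n → Fr g → V} (hc : ∀ κ, Continuous (f' κ))
    (h : ∀ κ p, HasDerivAt (fun s => f (fl H κ s p)) (f' κ p) 0) : Continuous f :=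
  continuous_of_rd fun _ _ hz => (hasFDerivAt_rd H hc h hz).continuousAt.continuousWithinAt

/-- **(CL)**: a class of continuous functions closed under the derivatives along the flows
consists of smooth functions -/
theorem smF_of_class {S : Set (Fr g → V)} (hS : ∀ f ∈ S, Continuous f)
    (h : ∀ f ∈ S, ∀ κ, ∃ f' ∈ S, ∀ p, HasDerivAt (fun s => f (fl H κ s p)) (f' p) 0)
    {f : Fr g → V} (hf : f ∈ S) : SmF f := by
  have key : ∀ k : ℕ, ∀ f ∈ S, ∀ a : M, ContDiffOn ℝ k (rd f a) (dom g a) := by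
    intro k
    induction k with
    | zero =>
      intro f hf a
      have h1 : ∀ z ∈ dom g a, ContinuousAt (rd f a) z := by
        intro z hz
        choose f' hf' hd using h f hf
        exact (hasFDerivAt_rd H (fun κ => hS _ (hf' κ)) (fun κ p => hd κ p) hz).continuousAt
      simp only [Nat.cast_zero]
      exact contDiffOn_zero.2 fun z hz => (h1 z hz).continuousWithinAt
    | succ k ih =>
      intro f hf a
      choose f' hf' hd using h f hf
      have h1 : ∀ z ∈ dom g a, HasFDerivAt (rd f a)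
          (∑ κ, (cf g a κ z).smulRight (rd (f' κ) a z)) z := fun z hz =>
        hasFDerivAt_rd H (fun κ => hS _ (hf' κ)) (fun κ p => hd κ p) hz
      have h2 : ContDiffOn ℝ ((k : ℕ∞ω) + 1) (rd f a) (dom g a) := by
        rw [contDiffOn_succ_iff_fderiv_of_isOpen (isOpen_dom a)]
        refine ⟨fun z hz => (h1 z hz).differentiableAt.differentiableWithinAt, by simp, ?_⟩
        have h3 : ContDiffOn ℝ k (fun z => ∑ κ, (cf g a κ z).smulRight (rd (f' κ) a z))
            (dom g a) := by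
          refine ContDiffOn.sum fun κ _ => ?_
          refine ContDiffOn.smulRight (fun z hz => ?_) (ih _ (hf' κ) a)
          exact ((contDiffAt_cf a κ hz).of_le (by exact_mod_cast le_top)).contDiffWithinAt
        exact h3.congr fun z hz => (h1 z hz).fderiv
      exact_mod_cast h2
  intro a
  rw [contDiffOn_infty]
  exact fun k => key k f hf a

end Vale.Agent.P207.H440
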