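import Vale.Agent.P207.H440.Tri
import Vale.Agent.P207.Q.H916.Fr8

/-!
# P207 / H440: compositions of the horizontal and vertical flows as local coordinates
-/

open scoped Manifold ContDiff ENNReal Topology
open Bundle MeasureTheory Set Filter Topology

noncomputable section

set_option maxSynthPendingDepth 3
set_option linter.unusedSectionVars false

namespace Vale.Agent.P207.H440

open Vale.Agent.P207.Q Vale.Agent.P207.Q.Fl
open Vale.Agent.P255 (RMetric coefIn Gam Riem IsGeo Metric Npc ExpSys toMetric geo expg cc trans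
  IsGeodesic coefL chris chrisB IsMetricOn covD)

variable {n : ℕ}

/-- index set of the flows: horizontal directions and coordinate planes -/
abbrev Kp (n : ℕ) : Type := Fin n ⊕ {p : Fin n × Fin n // p.1 < p.2}

/-- positions of an upper triangular matrix -/
abbrev Up (n : ℕ) : Type := {p : Fin n × Fin n // p.1 ≤ p.2}

/-- parameters -/
abbrev Pm (n : ℕ) : Type := (Kp n → ℝ) × (Up n → ℝ)

/-- the upper triangular matrix with entries `u` -/
def upm (u : Up n → ℝ) : Matrix (Fin n) (Fin n) ℝ :=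
  ∑ q : Up n, u q • Matrix.single q.1.1 q.1.2 (1 : ℝ)

theorem upm_of_le (u : Up n → ℝ) (q : Up n) : upm u q.1.1 q.1.2 = u q := by
  unfold upm
  rw [Matrix.sum_apply, Finset.sum_eq_single q]
  · simp
  · intro p _ hp
    rw [Matrix.smul_apply, Matrix.single_apply, if_neg, smul_zero]
    rintro ⟨h1, h2⟩
    exact hp (Subtype.ext (Prod.ext h1 h2))
  · intro h
    exact absurd (Finset.mem_univ q) h

theorem upm_of_lt (u : Up n → ℝ) {i j : Fin n} (h : j < i) : upm u i j = 0 := by
  unfold upm
  rw [Matrix.sum_apply]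
  refine Finset.sum_eq_zero fun p _ => ?_
  rw [Matrix.smul_apply, Matrix.single_apply, if_neg, smul_zero]
  rintro ⟨h1, h2⟩
  have h3 := p.2
  rw [h1, h2] at h3
  exact absurd h3 (not_le.2 h)

variable {M : Type} [TopologicalSpace M] [ChartedSpace (EV n) M] [IsManifold 𝓘(ℝ, EV n) ∞ M]

/-- the fields -/
def zf (g : RMetric (EV n) M) : Kp n → ChField g
  | Sum.inl i => horZ g (Pi.single i 1)
  | Sum.inr p => verZ g (Brk.rot p.1.1 p.1.2)

variable {g : RMetric (EV n) M}

/-- the flows -/
def fl (H : HorFlows g) : Kp n → ℝ → Fr g → Fr g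
  | Sum.inl i => H.Φ i
  | Sum.inr p => verFlow (isGen_rot (ne_of_lt p.2))

variable (H : HorFlows g)

/-- composition of the flows in the order of the list `l` (the last one is applied first) -/
def cmp (l : List (Kp n)) (t : Kp n → ℝ) (p : Fr g) : Fr g :=
  l.foldr (fun κ q => fl H κ (t κ) q) p

theorem cmp_nil (t : Kp n → ℝ) (p : Fr g) : cmp H [] t p = p := rfl

theorem cmp_cons (κ : Kp n) (l : List (Kp n)) (t : Kp n → ℝ) (p : Fr g) :
    cmp H (κ :: l) t p = fl H κ (t κ) (cmp H l t p) := rfl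

section

variable [NeZero n]

theorem isFlow_fl (κ : Kp n) : IsFlow (zf g κ) (fl H κ) := by
  rcases κ with i | p
  · exact (H.hor i).isFlow
  · exact isFlow_ver _

theorem fl_zero (κ : Kp n) (p : Fr g) : fl H κ 0 p = p := (isFlow_fl H κ).zero p

theorem fl_add [CompactSpace M] [T2Space M] (κ : Kp n) (s t : ℝ) (p : Fr g) :
    fl H κ (s + t) p = fl H κ s (fl H κ t p) := by
  rcases κ with i | q
  · exact (H.hor i).add s t p
  · exact verFlow_add _ s t p

theorem continuous_fl (κ : Kp n) : Continuous fun q : ℝ × Fr g => fl H κ q.1 q.2 := by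
  rcases κ with i | q
  · exact H.cont i
  · exact continuous_verFlow _

theorem cmp_zero (l : List (Kp n)) (p : Fr g) : cmp H l 0 p = p := by
  induction l with
  | nil => rfl
  | cons κ l ih => rw [cmp_cons, ih, Pi.zero_apply, fl_zero]

theorem continuous_cmp (l : List (Kp n)) :
    Continuous fun q : (Kp n → ℝ) × Fr g => cmp H l q.1 q.2 := by
  induction l with
  | nil => exact continuous_snd
  | cons κ l ih =>
    have h1 : Continuous fun q : (Kp n → ℝ) × Fr g => (q.1 κ, cmp H l q.1 q.2) :=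
      ((continuous_apply κ).comp continuous_fst).prodMk ih
    exact (continuous_fl H κ).comp h1

theorem cmp_single' (l : List (Kp n)) (hl : l.Nodup) (κ : Kp n) (s : ℝ) (p : Fr g) :
    (κ ∈ l → cmp H l (Pi.single κ s) p = fl H κ s p) ∧
      (κ ∉ l → cmp H l (Pi.single κ s) p = p) := by
  induction l with
  | nil => exact ⟨fun h => absurd h List.not_mem_nil, fun _ => rfl⟩
  | cons μ l ih =>
    have h1 := List.nodup_cons.1 hl
    have h2 := ih h1.2
    rw [cmp_cons]
    by_cases h : κ = μ
    · subst h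
      rw [h2.2 h1.1, Pi.single_eq_same]
      exact ⟨fun _ => rfl, fun h => absurd List.mem_cons_self h⟩
    · rw [Pi.single_eq_of_ne (Ne.symm h), fl_zero]
      refine ⟨fun h3 => h2.1 ((List.mem_cons.1 h3).resolve_left h), fun h3 => h2.2 fun h4 => ?_⟩
      exact h3 (List.mem_cons_of_mem _ h4)

theorem cmp_single {l : List (Kp n)} (hl : l.Nodup) {κ : Kp n} (hκ : κ ∈ l) (s : ℝ) (p : Fr g) :
    cmp H l (Pi.single κ s) p = fl H κ s p := (cmp_single' H l hl κ s p).1 hκ

variable [CompactSpace M] [T2Space M] [Nonempty (Fr g)]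

theorem map_fl (κ : Kp n) : ((Dif.lin ℝ).prod (frSys g).dif).Map (frSys g).dif
    (fun q : ℝ × Fr g => fl H κ q.1 q.2) := by
  rcases κ with i | q
  · exact (H.hor i).map
  · exact map_verFlow _

theorem at_cmp {F : Type} [NormedAddCommGroup F] [NormedSpace ℝ F] [FiniteDimensional ℝ F]
    (l : List (Kp n)) {u : F → Fr g} {t : F → Kp n → ℝ} {x : F} (hu : (frSys g).dif.At u x)
    (ht : Sm t x) : (frSys g).dif.At (fun y => cmp H l (t y) (u y)) x := by
  induction l with
  | nil => exact hu
  | cons κ l ih =>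
    exact map_fl H κ (u := fun y => (t y κ, cmp H l (t y) (u y)))
      ⟨Sm.apply (f := t) ht κ, ih⟩

end

/-! ### the linear map -/

/-- the differential of the coordinates at the origin -/
def Lm (g : RMetric (EV n) M) (a : M) (y : St (Fin n) n) : Pm n →L[ℝ] St (Fin n) n :=
  ∑ κ : Kp n, ((ContinuousLinearMap.proj (R := ℝ) (φ := fun _ : Kp n => ℝ) κ).comp
      (ContinuousLinearMap.fst ℝ (Kp n → ℝ) (Up n → ℝ))).smulRight ((zf g κ).Z a y) +
    ∑ q : Up n, ((ContinuousLinearMap.proj (R := ℝ) (φ := fun _ : Up n => ℝ) q).comp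
      (ContinuousLinearMap.snd ℝ (Kp n → ℝ) (Up n → ℝ))).smulRight
        (Brk.verL (Matrix.single q.1.1 q.1.2 (1 : ℝ)) y)

theorem Lm_apply (a : M) (y : St (Fin n) n) (x : Pm n) :
    Lm g a y x = ∑ κ : Kp n, x.1 κ • (zf g κ).Z a y +
      ∑ q : Up n, x.2 q • Brk.verL (Matrix.single q.1.1 q.1.2 (1 : ℝ)) y := by
  simp only [Lm, add_apply, sum_apply, ContinuousLinearMap.smulRight_apply,
    ContinuousLinearMap.comp_apply, ContinuousLinearMap.proj_apply, ContinuousLinearMap.coe_fst',
    ContinuousLinearMap.coe_snd']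

theorem contDiffAt_Lm (a : M) {y : St (Fin n) n} (hy : y.1 ∈ (chartAt (EV n) a).target) :
    ContDiffAt ℝ ∞ (Lm g a) y := by
  unfold Lm
  refine ContDiffAt.add (ContDiffAt.sum fun κ _ => ?_) (ContDiffAt.sum fun q _ => ?_)
  · exact ContDiffAt.smulRight contDiffAt_const ((zf g κ).smooth a y hy)
  · exact ContDiffAt.smulRight contDiffAt_const
      (Brk.verL (E := EV n) (Matrix.single q.1.1 q.1.2 (1 : ℝ))).contDiff.contDiffAt

theorem ver_snd (A : Matrix (Fin n) (Fin n) ℝ) (y : St (Fin n) n) (c : Fin n) :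
    (Brk.ver A y).2 c = ∑ b, A b c • y.2 b := rfl

theorem ker_Lm {a : M} {y : St (Fin n) n} (hy : Orth ((mt g).coef a y.1) y.2) {x : Pm n}
    (h : Lm g a y x = 0) : x = 0 := by
  rw [Lm_apply, Fintype.sum_sum_type] at h
  have hZ1 : ∀ i : Fin n, ((zf g (Sum.inl i)).Z a y).1 = y.2 i := by
    intro i
    change ∑ k, (Pi.single i (1 : ℝ) : Fin n → ℝ) k • y.2 k = y.2 i
    simp [Pi.single_apply]
  have hZ2 : ∀ p : {p : Fin n × Fin n // p.1 < p.2}, (zf g (Sum.inr p)).Z a y =
      Brk.ver (Brk.rot p.1.1 p.1.2) y := fun p => rfl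
  have h1 : ∑ i : Fin n, x.1 (Sum.inl i) • y.2 i = 0 := by
    have h2 := congrArg Prod.fst h
    simp only [Prod.fst_add, Prod.fst_sum, Prod.smul_fst, hZ1, hZ2, Brk.verL_apply, Prod.fst_zero]
      at h2
    simpa [Brk.ver] using h2
  have h3 : ∀ i, x.1 (Sum.inl i) = 0 := fun i => Orth.lin hy h1 i
  have h4 : ∀ b c : Fin n, ∑ p : {p : Fin n × Fin n // p.1 < p.2},
      x.1 (Sum.inr p) * Brk.rot p.1.1 p.1.2 b c +
      ∑ q : Up n, x.2 q * Matrix.single q.1.1 q.1.2 (1 : ℝ) b c = 0 := by
    intro b c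
    have h5 := congrFun (congrArg Prod.snd h) c
    simp only [h3, zero_smul, Finset.sum_const_zero, zero_add, hZ2, Brk.verL_apply, Prod.snd_add,
      Prod.snd_sum, Prod.smul_snd, Pi.add_apply, Finset.sum_apply, Pi.smul_apply, Prod.snd_zero,
      Pi.zero_apply, ver_snd] at h5
    have h6 : ∑ b, (∑ p : {p : Fin n × Fin n // p.1 < p.2},
      x.1 (Sum.inr p) * Brk.rot p.1.1 p.1.2 b c +
      ∑ q : Up n, x.2 q * Matrix.single q.1.1 q.1.2 (1 : ℝ) b c) • y.2 b = 0 := by
      rw [← h5]
      simp only [add_smul, Finset.sum_add_distrib, Finset.sum_smul, Finset.smul_sum, smul_smul]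
      congr 1 <;> exact Finset.sum_comm
    exact Orth.lin hy h6 b
  have h7 : ∀ p : {p : Fin n × Fin n // p.1 < p.2}, x.1 (Sum.inr p) = 0 := by
    intro p
    have h8 := h4 p.1.2 p.1.1
    rw [Finset.sum_eq_single p, Finset.sum_eq_zero] at h8
    · have h9 : Brk.rot (ι := Fin n) p.1.1 p.1.2 p.1.2 p.1.1 = -1 := by
        simp [Brk.rot, Matrix.single_apply, (ne_of_lt p.2)]
      rw [h9] at h8
      linarith
    · intro q _
      rw [Matrix.single_apply, if_neg, mul_zero]
      rintro ⟨h9, h10⟩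
      have h11 := q.2
      rw [h9, h10] at h11
      exact absurd h11 (not_le.2 p.2)
    · intro q _ hq
      have h9 : Brk.rot (ι := Fin n) q.1.1 q.1.2 p.1.2 p.1.1 = 0 := by
        simp only [Brk.rot, Matrix.sub_apply, Matrix.single_apply]
        rw [if_neg, if_neg, sub_zero]
        · rintro ⟨h10, h11⟩
          exact hq (Subtype.ext (Prod.ext h11 h10))
        · rintro ⟨h10, h11⟩
          have h12 := q.2
          rw [h10, h11] at h12
          exact absurd h12 (not_lt.2 p.2.le)
      rw [h9, mul_zero]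
    · intro h9
      exact absurd (Finset.mem_univ p) h9
  have h8 : ∀ q : Up n, x.2 q = 0 := by
    intro q
    have h9 := h4 q.1.1 q.1.2
    rw [Finset.sum_eq_zero (fun p _ => by rw [h7 p, zero_mul]), zero_add,
      Finset.sum_eq_single q] at h9
    · simpa using h9
    · intro p _ hp
      rw [Matrix.single_apply, if_neg, mul_zero]
      rintro ⟨h10, h11⟩
      exact hp (Subtype.ext (Prod.ext h10 h11))
    · intro h10
      exact absurd (Finset.mem_univ q) h10
  refine Prod.ext (funext fun κ => ?_) (funext h8)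
  rcases κ with i | p
  · exact h3 i
  · exact h7 p

theorem finrank_Pm : Module.finrank ℝ (Pm n) = Module.finrank ℝ (St (Fin n) n) := by
  have h1 : Fintype.card {p : Fin n × Fin n // p.1 < p.2} + Fintype.card (Up n) = n * n := by
    have h2 : Fintype.card {p : Fin n × Fin n // p.1 < p.2} =
        Fintype.card {p : Fin n × Fin n // ¬ p.1 ≤ p.2} := by
      refine Fintype.card_congr ((Equiv.prodComm (Fin n) (Fin n)).subtypeEquiv fun p => ?_)
      simp
    have h3 := Fintype.card_subtype_compl (fun p : Fin n × Fin n => p.1 ≤ p.2)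
    have h4 := Fintype.card_subtype_le (fun p : Fin n × Fin n => p.1 ≤ p.2)
    have h5 : Fintype.card (Fin n × Fin n) = n * n := by simp
    have h6 : Fintype.card (Up n) = Fintype.card {p : Fin n × Fin n // p.1 ≤ p.2} := rfl
    rw [h5] at h3 h4
    rw [h2, h3, h6]
    omega
  have h2 : Module.finrank ℝ (Pm n) = n +
      (Fintype.card {p : Fin n × Fin n // p.1 < p.2} + Fintype.card (Up n)) := by
    rw [Module.finrank_prod, Module.finrank_fintype_fun_eq_card, Module.finrank_fintype_fun_eq_card,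
      Fintype.card_sum, Fintype.card_fin, add_assoc]
  rw [h2, h1, Module.finrank_prod, Module.finrank_pi_fintype]
  simp

/-- the differential at an orthonormal frame is invertible -/
theorem exists_equiv {a : M} {y : St (Fin n) n} (hy : Orth ((mt g).coef a y.1) y.2) :
    ∃ e : Pm n ≃L[ℝ] St (Fin n) n, (e : Pm n →L[ℝ] St (Fin n) n) = Lm g a y := by
  have hinj : Function.Injective (Lm g a y) := by
    rw [injective_iff_map_eq_zero]
    exact fun x hx => ker_Lm hy hx
  have hinj' : Function.Injective (Lm g a y : Pm n →ₗ[ℝ] St (Fin n) n) := hinj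
  have hsur : Function.Surjective (Lm g a y : Pm n →ₗ[ℝ] St (Fin n) n) :=
    (LinearMap.injective_iff_surjective_of_finrank_eq_finrank finrank_Pm).1 hinj'
  refine ⟨(LinearEquiv.ofBijective (Lm g a y : Pm n →ₗ[ℝ] St (Fin n) n)
    ⟨hinj', hsur⟩).toContinuousLinearEquiv, ?_⟩
  ext x <;> rfl

end Vale.Agent.P207.H440
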