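import Vale.Agent.P207.H440.CL2
import Vale.Agent.P207.H440.Fam

/-!
# P207 / H440: averages over small pieces of the flows are bounded by integrals
-/

open scoped Manifold ContDiff ENNReal Topology
open Bundle MeasureTheory Set Filter Topology Metric

noncomputable section

set_option maxSynthPendingDepth 3
set_option linter.unusedSectionVars false

namespace Vale.Agent.P207.H440

open Vale.Agent.P207.Q Vale.Agent.P207.Q.Fl
open Vale.Agent.P255 (RMetric coefIn Gam Riem IsGeo Metric Npc ExpSys toMetric geo expg cc trans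
  IsGeodesic coefL chris chrisB IsMetricOn covD)

variable {n : ℕ} {M : Type} [TopologicalSpace M] [ChartedSpace (EV n) M]
  [IsManifold 𝓘(ℝ, EV n) ∞ M] {g : RMetric (EV n) M}
variable [NeZero n] [CompactSpace M] [T2Space M]
variable (H : HorFlows g)
variable [Nonempty (Fr g)]

/-- Lebesgue measure on the parameters -/
abbrev vPm (n : ℕ) : Measure (Pm n) :=
  (volume : Measure (Kp n → ℝ)).prod (volume : Measure (Up n → ℝ))

instance instHaarPm (n : ℕ) : (vPm n).IsAddHaarMeasure := Measure.prod.instIsAddHaarMeasure _ _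

omit [NeZero n] in
/-- integrals over a cube of the parameters of a function of the flow parameters -/
theorem lintegral_cube {f : (Kp n → ℝ) → ℝ≥0∞} (hf : Measurable f) (r : ℝ) :
    ∫⁻ x in closedBall (0 : Pm n) r, f x.1 ∂vPm n =
      (∫⁻ t in closedBall (0 : Kp n → ℝ) r, f t) *
        (volume : Measure (Up n → ℝ)) (closedBall 0 r) := by
  have h1 : closedBall (0 : Pm n) r = closedBall (0 : Kp n → ℝ) r ×ˢ
      closedBall (0 : Up n → ℝ) r := (closedBall_prod_same _ _ _).symm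
  have h2 : AEMeasurable (fun x : (Kp n → ℝ) × (Up n → ℝ) => f x.1)
      (((volume : Measure (Kp n → ℝ)).restrict (closedBall 0 r)).prod
        ((volume : Measure (Up n → ℝ)).restrict (closedBall 0 r))) :=
    (hf.comp measurable_fst).aemeasurable
  rw [h1, ← Measure.prod_restrict, lintegral_prod _ h2]
  simp only [lintegral_const, Measure.restrict_apply MeasurableSet.univ, univ_inter]
  rw [lintegral_mul_const _ hf]

/-- comparison of the averages at near points -/
theorem loc_near {l : List (Kp n)} (hl : l.Nodup) (hall : ∀ κ, κ ∈ l) (p₀ : Fr g) :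
    ∃ r > 0, ∃ r₂ : ℝ, ∃ C : ℝ≥0∞, C ≠ ⊤ ∧ ∃ W ∈ 𝓝 p₀, ∀ p ∈ W, ∀ q ∈ W,
      ∀ F : Fr g → ℝ≥0∞, Continuous F →
      ∫⁻ t in closedBall (0 : Kp n → ℝ) r, F (cmp H l t p) ≤
        C * ∫⁻ t in closedBall (0 : Kp n → ℝ) r₂, F (cmp H l t q) := by
  set a := p₀.pt with ha
  have hp₀ : p₀.pt ∈ (chartAt (EV n) a).source := mem_chart_source _ _
  set z₀ := chF a p₀.1 with hz₀
  have hzd : z₀ ∈ dom g a := chF_mem_dom hp₀
  have hgs : gsSt ((mt g).coef a) z₀ = z₀ := gsSt_of_orth (orth_chF hp₀)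
  have hrt : rt g a z₀ = p₀ := rt_chF a p₀ hp₀
  obtain ⟨e, he⟩ := exists_equiv (g := g) (a := a) (y := z₀) (orth_chF hp₀)
  have hS : Sm (gm H l a) (z₀, 0) := by
    refine sm_gm H l (q := (z₀, 0)) hzd ?_
    simp only [Prod.fst_zero, cmp_zero]
    rw [hrt]
    exact hp₀
  set G : St (Fin n) n × Pm n → Pm n := fun q => e.symm (gm H l a q) with hG
  have hGc : ContDiffAt ℝ 1 G (z₀, 0) :=
    ContDiffAt.comp (z₀, (0 : Pm n)) (g := fun y => e.symm y)
      e.symm.contDiff.contDiffAt (hS.contDiffAt.of_le (by simp))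
  have hGD : (fderiv ℝ G (z₀, 0)).comp (ContinuousLinearMap.inr ℝ (St (Fin n) n) (Pm n)) =
      ContinuousLinearMap.id ℝ (Pm n) := by
    have h1 : HasFDerivAt (fun x : Pm n => G (z₀, x))
        ((fderiv ℝ G (z₀, 0)).comp (ContinuousLinearMap.inr ℝ (St (Fin n) n) (Pm n))) 0 :=
      (hGc.differentiableAt (by simp)).hasFDerivAt.comp (0 : Pm n)
        (hasFDerivAt_prodMk_right z₀ (0 : Pm n))
    have h2 := hasFDerivAt_gm H hl hall hzd
    rw [hgs, ← he] at h2
    have h3 : HasFDerivAt (fun x : Pm n => G (z₀, x))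
        ((e.symm : St (Fin n) n →L[ℝ] Pm n).comp (e : Pm n →L[ℝ] St (Fin n) n)) 0 :=
      e.symm.hasFDerivAt.comp (0 : Pm n) h2
    rw [h1.unique h3]
    exact ContinuousLinearMap.ext fun x => e.symm_apply_apply x
  -- the domain where everything is fine
  have hev : ∀ᶠ q : Fr g × Pm n in 𝓝 (p₀, (0 : Pm n)),
      (cmp H l q.2.1 q.1).pt ∈ (chartAt (EV n) a).source ∧ ∀ j, 0 < 1 + upm q.2.2 j j := by
    refine Filter.Eventually.and ?_ (eventually_all.2 fun j => ?_)
    · have h1 : Continuous fun q : Fr g × Pm n => (cmp H l q.2.1 q.1).pt :=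
        Fr.continuous_pt.comp ((continuous_cmp H l).comp
          ((continuous_fst.comp continuous_snd).prodMk continuous_fst))
      refine h1.continuousAt.preimage_mem_nhds ((chartAt (EV n) a).open_source.mem_nhds ?_)
      simp only [Prod.fst_zero, cmp_zero]
      exact hp₀
    · have h1 : Continuous fun q : Fr g × Pm n => 1 + upm q.2.2 j j := by
        have h2 : (fun q : Fr g × Pm n => 1 + upm q.2.2 j j) =
            fun q : Fr g × Pm n => 1 + q.2.2 ⟨(j, j), le_rfl⟩ := by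
          funext q
          rw [← upm_of_le q.2.2 ⟨(j, j), le_rfl⟩]
        rw [h2]
        fun_prop
      refine h1.continuousAt.eventually (lt_mem_nhds ?_)
      have h3 := upm_of_le (0 : Up n → ℝ) ⟨(j, j), le_rfl⟩
      simp only [Pi.zero_apply] at h3
      simp only [Prod.snd_zero, h3]
      norm_num
  rw [nhds_prod_eq] at hev
  obtain ⟨W₀, hW₀, B, hB, hWB⟩ := Filter.mem_prod_iff.1 hev
  obtain ⟨ρ, hρ, hρB⟩ := Metric.mem_nhds_iff.1 hB
  obtain ⟨ε, hε, hερ, r₁, hr₁, hr₁ε, W', hW', hfam⟩ :=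
    fam (μ := vPm n) hGc hGD hρ
  have hchc : ContinuousAt (fun q : Fr g => chF a q.1) p₀ :=
    ContinuousAt.comp (g := chF a) (continuousAt_chF a (f := p₀.1) hp₀)
      Fr.continuous_val.continuousAt
  have hsrc : ∀ᶠ q : Fr g in 𝓝 p₀, q.pt ∈ (chartAt (EV n) a).source :=
    Fr.continuous_pt.continuousAt.preimage_mem_nhds
      ((chartAt (EV n) a).open_source.mem_nhds hp₀)
  set v₁ := (volume : Measure (Up n → ℝ)) (closedBall 0 r₁) with hv₁
  set v₂ := (volume : Measure (Up n → ℝ)) (closedBall 0 ε) with hv₂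
  have hv₁0 : v₁ ≠ 0 := (measure_closedBall_pos volume 0 hr₁).ne'
  have hv₁t : v₁ ≠ ⊤ := measure_closedBall_lt_top.ne
  have hv₂t : v₂ ≠ ⊤ := measure_closedBall_lt_top.ne
  refine ⟨r₁, hr₁, ε, 4 * v₂ / v₁, ENNReal.div_ne_top (ENNReal.mul_ne_top (by simp) hv₂t) hv₁0,
    W₀ ∩ {q | q.pt ∈ (chartAt (EV n) a).source ∧ chF a q.1 ∈ W'},
    inter_mem hW₀ (hsrc.and (hchc.eventually hW')), ?_⟩
  rintro p ⟨hp1, hp2, hp3⟩ q ⟨hq1, hq2, hq3⟩ F hF
  have hFm : Measurable F := hF.measurable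
  have key : ∀ p ∈ W₀, p.pt ∈ (chartAt (EV n) a).source → ∀ x ∈ closedBall (0 : Pm n) ε,
      F (rt g a (e (G (chF a p.1, x)))) = F (cmp H l x.1 p) := by
    intro p hp hpa x hx
    have h1 : x ∈ ball (0 : Pm n) ρ := closedBall_subset_ball hερ hx
    have h2 := hWB (show (p, x) ∈ W₀ ×ˢ B from ⟨hp, hρB h1⟩)
    have h3 : rt g a (chF a p.1) = p := rt_chF a p hpa
    have h4 := rt_gm H l (a := a) (q := (chF a p.1, x)) (by
      simp only
      rw [h3]
      exact h2.1) h2.2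
    have h5 : e (G (chF a p.1, x)) = gm H l a (chF a p.1, x) := e.apply_symm_apply _
    rw [h5, h4.2, h3]
  have h1 := hfam (chF a p.1) hp3 (chF a q.1) hq3 (fun y => F (rt g a (e y)))
  have h2 : ∫⁻ x in closedBall (0 : Pm n) r₁, F (rt g a (e (G (chF a p.1, x)))) ∂vPm n =
      ∫⁻ x in closedBall (0 : Pm n) r₁, F (cmp H l x.1 p) ∂vPm n :=
    setLIntegral_congr_fun isClosed_closedBall.measurableSet fun x hx =>
      key p hp1 hp2 x (closedBall_subset_closedBall hr₁ε hx)
  have h3 : ∫⁻ x in closedBall (0 : Pm n) ε, F (rt g a (e (G (chF a q.1, x)))) ∂vPm n =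
      ∫⁻ x in closedBall (0 : Pm n) ε, F (cmp H l x.1 q) ∂vPm n :=
    setLIntegral_congr_fun isClosed_closedBall.measurableSet fun x hx => key q hq1 hq2 x hx
  have hmeas : ∀ p : Fr g, Measurable fun t : Kp n → ℝ => F (cmp H l t p) := fun p =>
    (hF.comp ((continuous_cmp H l).comp (Continuous.prodMk_left p))).measurable
  rw [h2, h3, lintegral_cube (hmeas p), lintegral_cube (hmeas q)] at h1
  have h4 : ∫⁻ t in closedBall (0 : Kp n → ℝ) r₁, F (cmp H l t p) =
      ((∫⁻ t in closedBall (0 : Kp n → ℝ) r₁, F (cmp H l t p)) * v₁) / v₁ := by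
    rw [ENNReal.mul_div_cancel_right hv₁0 hv₁t]
  rw [h4]
  refine (ENNReal.div_le_div_right h1 v₁).trans (le_of_eq ?_)
  simp only [div_eq_mul_inv]
  ring

/-- **the averages over small pieces of the flows are bounded by the integral** -/
theorem loc_lintegral {mP : Measure (Fr g)} [IsFiniteMeasure mP] [mP.IsOpenPosMeasure]
    (hmp : ∀ κ t, MeasurePreserving (fl H κ t) mP mP) {l : List (Kp n)} (hl : l.Nodup)
    (hall : ∀ κ, κ ∈ l) : ∃ r > 0, ∃ C : ℝ≥0∞, C ≠ ⊤ ∧ ∀ p : Fr g,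
      ∀ F : Fr g → ℝ≥0∞, Continuous F →
      ∫⁻ t in closedBall (0 : Kp n → ℝ) r, F (cmp H l t p) ≤ C * ∫⁻ q, F q ∂mP := by
  have hcmp : ∀ (l : List (Kp n)) (t : Kp n → ℝ), MeasurePreserving (cmp H l t) mP mP := by
    intro l t
    induction l with
    | nil => exact MeasurePreserving.id mP
    | cons κ l ih => exact (hmp κ (t κ)).comp ih
  have h1 : ∀ p₀ : Fr g, ∃ r > 0, ∃ C : ℝ≥0∞, C ≠ ⊤ ∧ ∃ W ∈ 𝓝 p₀, ∀ p ∈ W,
      ∀ F : Fr g → ℝ≥0∞, Continuous F →
      ∫⁻ t in closedBall (0 : Kp n → ℝ) r, F (cmp H l t p) ≤ C * ∫⁻ q, F q ∂mP := by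
    intro p₀
    obtain ⟨r, hr, r₂, C, hC, W, hW, hWF⟩ := loc_near H hl hall p₀
    have hW' : interior W ∈ 𝓝 p₀ := interior_mem_nhds.2 hW
    have hpos : mP (interior W) ≠ 0 :=
      (isOpen_interior.measure_pos mP ⟨p₀, mem_interior_iff_mem_nhds.2 hW⟩).ne'
    have hfin : mP (interior W) ≠ ⊤ := measure_ne_top _ _
    set v := (volume : Measure (Kp n → ℝ)) (closedBall 0 r₂) with hv
    have hvt : v ≠ ⊤ := measure_closedBall_lt_top.ne
    refine ⟨r, hr, C * v / mP (interior W), ENNReal.div_ne_top (ENNReal.mul_ne_top hC hvt) hpos,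
      interior W, hW', fun p hp F hF => ?_⟩
    have hjm : Measurable (fun x : Fr g × (Kp n → ℝ) => F (cmp H l x.2 x.1)) := by
      have h2 : Continuous (fun x : Fr g × (Kp n → ℝ) => F (cmp H l x.2 x.1)) :=
        hF.comp ((continuous_cmp H l).comp continuous_swap)
      exact h2.measurable
    have h2 : (∫⁻ t in closedBall (0 : Kp n → ℝ) r, F (cmp H l t p)) * mP (interior W) ≤
        C * v * ∫⁻ q, F q ∂mP := by
      calc (∫⁻ t in closedBall (0 : Kp n → ℝ) r, F (cmp H l t p)) * mP (interior W)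
          = ∫⁻ _ in interior W, (∫⁻ t in closedBall (0 : Kp n → ℝ) r, F (cmp H l t p)) ∂mP := by
            rw [setLIntegral_const]
        _ ≤ ∫⁻ q in interior W, C * (∫⁻ t in closedBall (0 : Kp n → ℝ) r₂,
              F (cmp H l t q)) ∂mP :=
            setLIntegral_mono' isOpen_interior.measurableSet fun q hq =>
              hWF p (interior_subset hp) q (interior_subset hq) F hF
        _ ≤ ∫⁻ q, C * (∫⁻ t in closedBall (0 : Kp n → ℝ) r₂, F (cmp H l t q)) ∂mP :=
            setLIntegral_le_lintegral _ _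
        _ = C * ∫⁻ q, (∫⁻ t in closedBall (0 : Kp n → ℝ) r₂, F (cmp H l t q)) ∂mP :=
            lintegral_const_mul' _ _ hC
        _ = C * ∫⁻ t in closedBall (0 : Kp n → ℝ) r₂, (∫⁻ q, F (cmp H l t q) ∂mP) := by
            rw [lintegral_lintegral_swap hjm.aemeasurable]
        _ = C * ∫⁻ _ in closedBall (0 : Kp n → ℝ) r₂, (∫⁻ q, F q ∂mP) := by
            congr 1
            refine lintegral_congr fun t => ?_
            exact (hcmp l t).lintegral_comp hF.measurable
        _ = C * v * ∫⁻ q, F q ∂mP := by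
            rw [setLIntegral_const, ← hv]
            ring
    rw [ENNReal.mul_div_right_comm, ENNReal.div_eq_inv_mul] at *
    have h3 : ∫⁻ t in closedBall (0 : Kp n → ℝ) r, F (cmp H l t p) =
        (∫⁻ t in closedBall (0 : Kp n → ℝ) r, F (cmp H l t p)) * mP (interior W) *
          (mP (interior W))⁻¹ := by
      rw [mul_assoc, ENNReal.mul_inv_cancel hpos hfin, mul_one]
    rw [h3]
    calc (∫⁻ t in closedBall (0 : Kp n → ℝ) r, F (cmp H l t p)) * mP (interior W) *
          (mP (interior W))⁻¹ ≤ C * v * (∫⁻ q, F q ∂mP) * (mP (interior W))⁻¹ :=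
          mul_le_mul_left h2 _
      _ = _ := by ring
  choose r hr C hC W hW hF using h1
  obtain ⟨s, -, hs⟩ := (isCompact_univ (X := Fr g)).elim_nhds_subcover W fun p _ => hW p
  have hne : s.Nonempty := by
    obtain ⟨p⟩ := (inferInstance : Nonempty (Fr g))
    obtain ⟨q, hq, -⟩ := mem_iUnion₂.1 (hs (mem_univ p))
    exact ⟨q, hq⟩
  refine ⟨s.inf' hne r, (Finset.lt_inf'_iff hne).2 fun p _ => hr p, ∑ p ∈ s, C p,
    ENNReal.sum_ne_top.2 fun p _ => hC p, fun p F hFc => ?_⟩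
  obtain ⟨q, hq, hpq⟩ := mem_iUnion₂.1 (hs (mem_univ p))
  calc ∫⁻ t in closedBall (0 : Kp n → ℝ) (s.inf' hne r), F (cmp H l t p)
      ≤ ∫⁻ t in closedBall (0 : Kp n → ℝ) (r q), F (cmp H l t p) :=
        lintegral_mono_set (closedBall_subset_closedBall (Finset.inf'_le r hq))
    _ ≤ C q * ∫⁻ q, F q ∂mP := hF q p hpq F hFc
    _ ≤ (∑ p ∈ s, C p) * ∫⁻ q, F q ∂mP :=
        mul_le_mul_left (Finset.single_le_sum (f := C) (fun _ _ => bot_le) hq) _

end Vale.Agent.P207.H440
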