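import Vale.Agent.P207.H440.Loc
import Vale.Agent.P207.H440.Avg
import Vale.Agent.P207.H395.NSys

/-!
# P207 / H440: (LOC) and (CL) for a system of flows on the frame bundle which contains the
horizontal flows and the rotations
-/

open scoped Manifold ContDiff ENNReal Topology
open Bundle MeasureTheory Set Filter Topology Metric

noncomputable section

set_option maxSynthPendingDepth 3
set_option linter.unusedSectionVars false

namespace Vale.Agent.P207.H440

open Vale.Agent.P207.Q Vale.Agent.P207.Q.Fl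
open Vale.Agent.P255 (RMetric coefIn Gam Riem IsGeo Metric Npc ExpSys toMetric geo expg cc trans
  IsGeodesic coefL chris chrisB IsMetricOn covD)

variable {n : ℕ} {M : Type} [TopologicalSpace M] [ChartedSpace (EV n) M]
  [IsManifold 𝓘(ℝ, EV n) ∞ M] {g : RMetric (EV n) M}
variable [NeZero n] [CompactSpace M] [T2Space M]
variable (H : HorFlows g)
variable [Nonempty (Fr g)]

theorem cr_eq_cmp (l : List (Kp n)) (t : Kp n → ℝ) (p : Fr g) :
    cr (fl H) l t p = cmp H l.reverse t p := by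
  induction l generalizing p with
  | nil => rfl
  | cons a l ih =>
    unfold cr cmp
    rw [ih, List.reverse_cons, List.foldr_append]
    rfl

/-- (LOC) with the iterated averages -/
theorem loc_avg {mP : Measure (Fr g)} [IsFiniteMeasure mP] [mP.IsOpenPosMeasure]
    (hmp : ∀ κ t, MeasurePreserving (fl H κ t) mP mP) {l : List (Kp n)} (hl : l.Nodup)
    (hall : ∀ κ, κ ∈ l) : ∃ r > 0, ∃ C : ℝ, 0 ≤ C ∧ ∀ F : Fr g → ℝ, Continuous F →
      (∀ p, 0 ≤ F p) → ∀ p, H955.avg (fl H) r l F p ≤ C * ∫ q, F q ∂mP := by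
  classical
  obtain ⟨r, hr, C, hC, h⟩ := loc_lintegral H hmp (l := l.reverse) (List.nodup_reverse.2 hl)
    (fun κ => List.mem_reverse.2 (hall κ))
  refine ⟨r, hr, C.toReal, ENNReal.toReal_nonneg, fun F hF h0 p => ?_⟩
  have h1 := ofReal_avg_univ (Φ := fl H) (continuous_fl H) hF h0 hr.le l hl hall p
  have h2 := h p (fun q => ENNReal.ofReal (F q)) (ENNReal.continuous_ofReal.comp hF)
  simp only [cr_eq_cmp] at h1
  have h3 : ∫⁻ q, ENNReal.ofReal (F q) ∂mP = ENNReal.ofReal (∫ q, F q ∂mP) :=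
    (ofReal_integral_eq_lintegral_ofReal (hF.integrable_of_hasCompactSupport
      (HasCompactSupport.of_compactSpace _)) (Eventually.of_forall h0)).symm
  have h4 : ENNReal.ofReal (H955.avg (fl H) r l F p) ≤
      ENNReal.ofReal (C.toReal * ∫ q, F q ∂mP) := by
    rw [ENNReal.ofReal_mul ENNReal.toReal_nonneg, ENNReal.ofReal_toReal hC, ← h3]
    exact h1.trans h2
  exact (ENNReal.ofReal_le_ofReal_iff (mul_nonneg ENNReal.toReal_nonneg
    (integral_nonneg h0))).1 h4

theorem exists_list : ∃ l : List (Kp n), l.Nodup ∧ ∀ κ, κ ∈ l :=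
  ⟨Finset.univ.toList, Finset.nodup_toList _, fun κ => by simp⟩

variable {ι : Type} [Fintype ι] {mP : Measure (Fr g)}

/-- **(LOC)** -/
theorem nsys_loc [IsFiniteMeasure mP] [mP.IsOpenPosMeasure] (S : H395.NSys ι (Fr g) mP)
    (em : Kp n → ι) (hem : ∀ κ t p, S.Φ (em κ) t p = fl H κ t p) : S.Loc := by
  obtain ⟨l, hl, hall⟩ := exists_list (n := n)
  have hmp : ∀ κ t, MeasurePreserving (fl H κ t) mP mP := by
    intro κ t
    have h1 := S.mp (em κ) t
    have h2 : S.Φ (em κ) t = fl H κ t := funext fun p => hem κ t p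
    rwa [h2] at h1
  obtain ⟨r, hr, C, -, h⟩ := loc_avg H hmp hl hall
  refine ⟨l.map em, r, C, hr, fun F hF h0 p => ?_⟩
  rw [avg_map]
  have h2 : (fun a => S.Φ (em a)) = fl H := by
    funext κ t p
    exact hem κ t p
  rw [h2]
  exact h F hF h0 p

/-- **(CL)** -/
theorem nsys_cl (S : H395.NSys ι (Fr g) mP) (em : Kp n → ι)
    (hem : ∀ κ t p, S.Φ (em κ) t p = fl H κ t p) (hA : ∀ f : C(Fr g, ℝ), SmF (fun p => f p) →
      f ∈ S.A) : S.CL := by
  intro 𝒮 h𝒮 f hf
  refine hA f ?_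
  refine smF_of_class H (S := {F : Fr g → ℝ | ∃ f ∈ 𝒮, ∀ p, F p = f p}) ?_ ?_
    (f := fun p => f p) ⟨f, hf, fun _ => rfl⟩
  · rintro F ⟨f, -, hF⟩
    have h1 : F = fun p => f p := funext hF
    rw [h1]
    exact f.continuous
  · rintro F ⟨f, hf, hF⟩ κ
    obtain ⟨f', hf', h1⟩ := h𝒮 f hf (em κ)
    refine ⟨fun p => f' p, ⟨f', hf', fun _ => rfl⟩, fun p => ?_⟩
    have h2 := h1 p
    simp only [hem] at h2
    simpa only [hF] using h2

end Vale.Agent.P207.H440
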