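import Vale.Agent.P207.Q.FrSys

/-!
# P207 / H440: Gram-Schmidt and triangular matrices
-/

open scoped Manifold ContDiff ENNReal Topology
open Bundle MeasureTheory Set Filter Topology

noncomputable section

set_option maxSynthPendingDepth 3
set_option linter.unusedSectionVars false

namespace Vale.Agent.P207.H440

open Vale.Agent.P207.Q Vale.Agent.P207.Q.Fl
open Vale.Agent.P255 (RMetric coefIn Gam Riem IsGeo Metric Npc ExpSys toMetric geo expg cc trans
  IsGeodesic coefL chris chrisB IsMetricOn covD)

variable {n : ℕ}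

/-- extension of a matrix by zero -/
def exm (T : Matrix (Fin n) (Fin n) ℝ) (i j : ℕ) : ℝ :=
  if h : i < n ∧ j < n then T ⟨i, h.1⟩ ⟨j, h.2⟩ else 0

theorem exm_of {T : Matrix (Fin n) (Fin n) ℝ} {i j : ℕ} (hi : i < n) (hj : j < n) :
    exm T i j = T ⟨i, hi⟩ ⟨j, hj⟩ := dif_pos ⟨hi, hj⟩

/-- Gram-Schmidt applied to a triangular transform of an orthonormal family -/
theorem gs_tri {B : EV n →L[ℝ] EV n →L[ℝ] ℝ} {e : Fin n → EV n} (he : Orth B e)
    {T : Matrix (Fin n) (Fin n) ℝ} (hT : ∀ i j, j < i → T i j = 0) (hp : ∀ j, 0 < T j j) :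
    ∀ j < n, gu B (extz fun j => ∑ i, T i j • e i) j = exm T j j • extz e j ∧
      gs B (extz fun j => ∑ i, T i j • e i) j = extz e j := by
  intro j
  induction j using Nat.strong_induction_on with
  | _ j ih =>
    intro hj
    have hw : extz (fun j => ∑ i, T i j • e i) j =
        ∑ i ∈ Finset.range j, exm T i j • extz e i + exm T j j • extz e j := by
      rw [← Finset.sum_range_succ]
      have h1 : ∑ i ∈ Finset.range n, exm T i j • extz e i =
          ∑ i ∈ Finset.range (j + 1), exm T i j • extz e i := by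
        symm
        refine Finset.sum_subset (fun i hi => Finset.mem_range.2
          ((Nat.lt_succ_iff.1 (Finset.mem_range.1 hi)).trans_lt hj)) fun i hi hi' => ?_
        have h2 : i < n := Finset.mem_range.1 hi
        have h3 : j < i := by
          by_contra h
          exact hi' (Finset.mem_range.2 (by omega))
        rw [exm_of h2 hj, hT _ _ (show (⟨j, hj⟩ : Fin n) < ⟨i, h2⟩ from h3), zero_smul]
      rw [← h1, ← Fin.sum_univ_eq_sum_range (fun i => exm T i j • extz e i)]
      unfold extz
      rw [dif_pos hj]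
      refine Finset.sum_congr rfl fun i _ => ?_
      rw [exm_of i.2 hj, dif_pos i.2]
    have ho : ∀ i < n, ∀ k < n, B (extz e i) (extz e k) = if i = k then 1 else 0 := by
      intro i hi k hk
      unfold extz
      rw [dif_pos hi, dif_pos hk, he]
      simp only [Fin.mk.injEq]
    have hB : ∀ i < j, B (extz (fun j => ∑ i, T i j • e i) j) (extz e i) = exm T i j := by
      intro i hi
      rw [hw]
      simp only [map_add, map_sum, map_smul, add_apply, sum_apply, smul_apply, smul_eq_mul]
      rw [ho j hj i (hi.trans hj), if_neg (ne_of_gt hi), mul_zero, add_zero]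
      rw [Finset.sum_eq_single i]
      · rw [ho i (hi.trans hj) i (hi.trans hj), if_pos rfl, mul_one]
      · intro k hk hki
        have hk' : k < n := (Finset.mem_range.1 hk).trans hj
        rw [ho k hk' i (hi.trans hj), if_neg hki, mul_zero]
      · intro h
        exact absurd (Finset.mem_range.2 hi) h
    have hgu : gu B (extz fun j => ∑ i, T i j • e i) j = exm T j j • extz e j := by
      unfold gu
      have h1 : ∑ i : Fin j, (B (extz (fun j => ∑ i, T i j • e i) j)
          (gs B (extz fun j => ∑ i, T i j • e i) i)) • gs B (extz fun j => ∑ i, T i j • e i) i =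
          ∑ i ∈ Finset.range j, exm T i j • extz e i := by
        rw [← Fin.sum_univ_eq_sum_range (fun i => exm T i j • extz e i)]
        refine Finset.sum_congr rfl fun i _ => ?_
        rw [(ih i i.2 (i.2.trans hj)).2, hB i i.2]
      rw [h1, hw, add_sub_cancel_left]
    refine ⟨hgu, ?_⟩
    rw [gs_eq, hgu]
    have hpos : 0 < exm T j j := by
      rw [exm_of hj hj]
      exact hp _
    simp only [map_smul, smul_apply, smul_eq_mul]
    rw [ho j hj j hj, if_pos rfl, mul_one, Real.sqrt_mul_self hpos.le, smul_smul,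
      inv_mul_cancel₀ hpos.ne', one_smul]

variable {G : EV n → EV n →L[ℝ] EV n →L[ℝ] ℝ} {U : Set (EV n)}

theorem gsSt_stR {y : St (Fin n) n} (hy : Orth (G y.1) y.2)
    {T : Matrix (Fin n) (Fin n) ℝ} (hT : ∀ i j, j < i → T i j = 0) (hp : ∀ j, 0 < T j j) :
    gsSt G (stR T y) = y := by
  refine Prod.ext rfl ?_
  funext j
  have h1 := (gs_tri hy hT hp j j.2).2
  refine h1.trans ?_
  unfold extz
  rw [dif_pos j.2]

theorem stR_mem_gsDom {y : St (Fin n) n} (hU : y.1 ∈ U) (hy : Orth (G y.1) y.2)
    {T : Matrix (Fin n) (Fin n) ℝ} (hT : ∀ i j, j < i → T i j = 0) (hp : ∀ j, 0 < T j j) :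
    stR T y ∈ gsDom G U := by
  refine ⟨hU, fun j hj => ?_⟩
  change 0 < G y.1 (gu (G y.1) (extz fun j => ∑ i, T i j • y.2 i) j)
    (gu (G y.1) (extz fun j => ∑ i, T i j • y.2 i) j)
  rw [(gs_tri hy hT hp j hj).1]
  have hpos : 0 < exm T j j := by
    rw [exm_of hj hj]
    exact hp _
  have ho : G y.1 (extz y.2 j) (extz y.2 j) = 1 := by
    unfold extz
    rw [dif_pos hj, hy, if_pos rfl]
  simp only [map_smul, smul_apply, smul_eq_mul]
  rw [ho, mul_one]
  exact mul_pos hpos hpos

/-- orthonormal families are linearly independent -/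
theorem Orth.lin {B : EV n →L[ℝ] EV n →L[ℝ] ℝ} {e : Fin n → EV n} (he : Orth B e)
    {c : Fin n → ℝ} (h : ∑ i, c i • e i = 0) (j : Fin n) : c j = 0 := by
  have h1 := congrArg (fun v => B v (e j)) h
  simp only [map_sum, map_smul, sum_apply, smul_apply, smul_eq_mul, map_zero, zero_apply] at h1
  simp only [he _ _, mul_ite, mul_one, mul_zero, Finset.sum_ite_eq', Finset.mem_univ, if_true] at h1
  exact h1

end Vale.Agent.P207.H440
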